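import Mathlib

namespace Vale.Agent.P057

/-- `NoAP k A`: the set `A` of natural numbers contains no `k`-term arithmetic progression
`a, a + d, …, a + (k - 1) d` with common difference `d > 0`. -/
def NoAP (k : ℕ) (A : Finset ℕ) : Prop :=
  ∀ a d : ℕ, 0 < d → ¬ ∀ j < k, a + j * d ∈ A

/-- `r k N` is `r_k(N)`: the largest cardinality of a subset of `{1, …, N}` containing no `k`-term
arithmetic progression. -/
noncomputable def r (k N : ℕ) : ℕ :=
  sSup {c : ℕ | ∃ A : Finset ℕ, A ⊆ Finset.Icc 1 N ∧ NoAP k A ∧ A.card = c}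

end Vale.Agent.P057
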