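import Mathlib
import Vale.Agent.P057.Defs

open Finset

namespace Vale.Agent.P057

/-- The level-one digit set: even residues below `2D/3` and odd residues below `D/2`. -/
abbrev InS1 (D x : ℕ) : Prop :=
  x < D ∧ ((x % 2 = 0 ∧ 3 * x < 2 * D) ∨ (x % 2 = 1 ∧ 2 * x < D))

/-- The level-two digit set: residues below `E/4`. -/
abbrev InS2 (E t : ℕ) : Prop := 4 * t < E

lemma multiple_cases {D v k : ℤ} (hD : 0 < D) (hv : v = D * k) (h1 : -(2 * D) < v)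
    (h2 : v < 2 * D) : v = -D ∨ v = 0 ∨ v = D := by
  subst hv
  have h3 : -2 < k := by nlinarith
  have h4 : k < 2 := by nlinarith
  interval_cases k <;> simp

/-- For odd `D`, a `5`-term progression modulo `D` inside the level-one digit set is a genuine
progression of integers. -/
theorem digit5 (D x0 x1 x2 x3 x4 : ℕ) (hD : D % 2 = 1)
    (h0 : InS1 D x0) (h1 : InS1 D x1) (h2 : InS1 D x2) (h3 : InS1 D x3) (h4 : InS1 D x4)
    (v0 v1 v2 : ℤ) (hv0 : (x0 : ℤ) + x2 - 2 * x1 = v0) (hv1 : (x1 : ℤ) + x3 - 2 * x2 = v1)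
    (hv2 : (x2 : ℤ) + x4 - 2 * x3 = v2)
    (c0 : v0 = -D ∨ v0 = 0 ∨ v0 = D) (c1 : v1 = -D ∨ v1 = 0 ∨ v1 = D)
    (c2 : v2 = -D ∨ v2 = 0 ∨ v2 = D) :
    v0 = 0 ∧ v1 = 0 ∧ v2 = 0 := by
  unfold InS1 at h0 h1 h2 h3 h4
  omega

/-- A combination with zero sum of coefficients modulo `D`. -/
lemma mod_combo_second (D y0 y1 y2 : ℕ) (h : y0 + y2 = 2 * y1) :
    ∃ k : ℤ, (((y0 % D : ℕ) : ℤ) + ((y2 % D : ℕ) : ℤ) - 2 * ((y1 % D : ℕ) : ℤ)) = D * k := by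
  have e0 := Nat.mod_add_div y0 D
  have e1 := Nat.mod_add_div y1 D
  have e2 := Nat.mod_add_div y2 D
  refine ⟨2 * ((y1 / D : ℕ) : ℤ) - ((y0 / D : ℕ) : ℤ) - ((y2 / D : ℕ) : ℤ), ?_⟩
  have e0' : ((y0 % D : ℕ) : ℤ) + D * ((y0 / D : ℕ) : ℤ) = y0 := by exact_mod_cast e0
  have e1' : ((y1 % D : ℕ) : ℤ) + D * ((y1 / D : ℕ) : ℤ) = y1 := by exact_mod_cast e1
  have e2' : ((y2 % D : ℕ) : ℤ) + D * ((y2 / D : ℕ) : ℤ) = y2 := by exact_mod_cast e2
  have h' : (y0 : ℤ) + y2 = 2 * y1 := by exact_mod_cast h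
  linear_combination e0' + e2' - 2 * e1' + h'

lemma mod_combo_third (E v0 v1 v2 v3 : ℕ) (h : (v0 : ℤ) - 3 * v1 + 3 * v2 - v3 = 0) :
    ∃ k : ℤ, (((v0 % E : ℕ) : ℤ) - 3 * ((v1 % E : ℕ) : ℤ) + 3 * ((v2 % E : ℕ) : ℤ)
      - ((v3 % E : ℕ) : ℤ)) = E * k := by
  have e0 := Nat.mod_add_div v0 E
  have e1 := Nat.mod_add_div v1 E
  have e2 := Nat.mod_add_div v2 E
  have e3 := Nat.mod_add_div v3 E
  refine ⟨3 * ((v1 / E : ℕ) : ℤ) - ((v0 / E : ℕ) : ℤ) - 3 * ((v2 / E : ℕ) : ℤ)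
    + ((v3 / E : ℕ) : ℤ), ?_⟩
  have e0' : ((v0 % E : ℕ) : ℤ) + E * ((v0 / E : ℕ) : ℤ) = v0 := by exact_mod_cast e0
  have e1' : ((v1 % E : ℕ) : ℤ) + E * ((v1 / E : ℕ) : ℤ) = v1 := by exact_mod_cast e1
  have e2' : ((v2 % E : ℕ) : ℤ) + E * ((v2 / E : ℕ) : ℤ) = v2 := by exact_mod_cast e2
  have e3' : ((v3 % E : ℕ) : ℤ) + E * ((v3 / E : ℕ) : ℤ) = v3 := by exact_mod_cast e3
  linear_combination e0' - 3 * e1' + 3 * e2' - e3' + h

/-- The digits of a `5`-term progression modulo odd `D` are a genuine progression. -/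
lemma digit_ap (D : ℕ) (hD : D % 2 = 1) (y0 y1 y2 y3 y4 : ℕ)
    (h02 : y0 + y2 = 2 * y1) (h13 : y1 + y3 = 2 * y2) (h24 : y2 + y4 = 2 * y3)
    (h0 : InS1 D (y0 % D)) (h1 : InS1 D (y1 % D)) (h2 : InS1 D (y2 % D))
    (h3 : InS1 D (y3 % D)) (h4 : InS1 D (y4 % D)) :
    (((y0 % D : ℕ) : ℤ) + ((y2 % D : ℕ) : ℤ) = 2 * ((y1 % D : ℕ) : ℤ)) ∧
    (((y1 % D : ℕ) : ℤ) + ((y3 % D : ℕ) : ℤ) = 2 * ((y2 % D : ℕ) : ℤ)) ∧
    (((y2 % D : ℕ) : ℤ) + ((y4 % D : ℕ) : ℤ) = 2 * ((y3 % D : ℕ) : ℤ)) := by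
  have hDpos : (0 : ℤ) < D := by
    have : 0 < D := by omega
    exact_mod_cast this
  obtain ⟨k0, hk0⟩ := mod_combo_second D y0 y1 y2 h02
  obtain ⟨k1, hk1⟩ := mod_combo_second D y1 y2 y3 h13
  obtain ⟨k2, hk2⟩ := mod_combo_second D y2 y3 y4 h24
  have b0 := h0.1
  have b1 := h1.1
  have b2 := h2.1
  have b3 := h3.1
  have b4 := h4.1
  have c0 := multiple_cases hDpos hk0 (by omega) (by omega)
  have c1 := multiple_cases hDpos hk1 (by omega) (by omega)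
  have c2 := multiple_cases hDpos hk2 (by omega) (by omega)
  obtain ⟨r0, r1, r2⟩ := digit5 D _ _ _ _ _ hD h0 h1 h2 h3 h4 _ _ _ rfl rfl rfl c0 c1 c2
  exact ⟨by linarith, by linarith, by linarith⟩

/-- The digits below `E/4` of a sequence with vanishing third difference have vanishing third
difference. -/
lemma digit_third (E v0 v1 v2 v3 : ℕ) (h : (v0 : ℤ) - 3 * v1 + 3 * v2 - v3 = 0)
    (h0 : InS2 E (v0 % E)) (h1 : InS2 E (v1 % E)) (h2 : InS2 E (v2 % E))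
    (h3 : InS2 E (v3 % E)) :
    ((v0 % E : ℕ) : ℤ) - 3 * ((v1 % E : ℕ) : ℤ) + 3 * ((v2 % E : ℕ) : ℤ)
      - ((v3 % E : ℕ) : ℤ) = 0 := by
  obtain ⟨k, hk⟩ := mod_combo_third E v0 v1 v2 v3 h
  have hE : (0 : ℤ) < E := by
    have : 0 < E := by unfold InS2 at h0; omega
    exact_mod_cast this
  unfold InS2 at h0 h1 h2 h3
  have b1 : -(E : ℤ) < ((v0 % E : ℕ) : ℤ) - 3 * ((v1 % E : ℕ) : ℤ) + 3 * ((v2 % E : ℕ) : ℤ)
      - ((v3 % E : ℕ) : ℤ) := by omega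
  have b2 : ((v0 % E : ℕ) : ℤ) - 3 * ((v1 % E : ℕ) : ℤ) + 3 * ((v2 % E : ℕ) : ℤ)
      - ((v3 % E : ℕ) : ℤ) < E := by omega
  rw [hk] at b1 b2 ⊢
  have h3 : -1 < k := by nlinarith
  have h4 : k < 1 := by nlinarith
  have h5 : k = 0 := by omega
  simp [h5]

/-- Counting the level-one digit set: at least `(7 D - 6) / 12` elements. -/
lemma card_S1_ge (D : ℕ) (hD : D % 2 = 1) :
    7 * D ≤ 12 * ((range D).filter (InS1 D)).card + 6 := by
  have h1 : (range ((D + 2) / 3)).image (fun a => 2 * a) ∪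
      (range ((D + 1) / 4)).image (fun a => 2 * a + 1) ⊆ (range D).filter (InS1 D) := by
    intro x hx
    rw [mem_union, mem_image, mem_image] at hx
    rw [mem_filter, mem_range]
    rcases hx with ⟨a, ha, rfl⟩ | ⟨a, ha, rfl⟩
    · rw [mem_range] at ha
      unfold InS1
      omega
    · rw [mem_range] at ha
      unfold InS1
      omega
  have h2 := card_le_card h1
  rw [card_union_of_disjoint, card_image_of_injective, card_image_of_injective, card_range,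
    card_range] at h2
  · omega
  · intro a b hab; simpa using hab
  · intro a b hab; simpa using hab
  · rw [disjoint_left]
    intro x hx hx'
    rw [mem_image] at hx hx'
    obtain ⟨a, _, rfl⟩ := hx
    obtain ⟨b, _, hb⟩ := hx'
    omega

/-- Counting the level-two digit set: at least `E / 4` elements. -/
lemma card_S2_ge (E : ℕ) (hE : 0 < E) :
    E ≤ 4 * ((range E).filter (InS2 E)).card := by
  have h1 : range ((E + 3) / 4) ⊆ (range E).filter (InS2 E) := by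
    intro x hx
    rw [mem_range] at hx
    rw [mem_filter, mem_range]
    unfold InS2
    omega
  have h2 := card_le_card h1
  rw [card_range] at h2
  omega

end Vale.Agent.P057
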