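import Mathlib
import Vale.Agent.P057.Digits

open Finset

namespace Vale.Agent.P057

variable {ι : Type*} [Fintype ι] [DecidableEq ι]

/-- If pairwise coprime numbers divide `d` then so does their product. -/
lemma prod_dvd_of_pairwise (D : ι → ℕ) (hcop : Pairwise (Function.onFun Nat.Coprime D)) {d : ℕ}
    (h : ∀ i, D i ∣ d) : (∏ i, D i) ∣ d := by
  have key : ∀ t : Finset ι, (∏ i ∈ t, D i) ∣ d := by
    intro t
    induction t using Finset.induction_on with
    | empty => simp
    | insert a s ha ih =>
        rw [prod_insert ha]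
        refine Nat.Coprime.mul_dvd_of_dvd_of_dvd ?_ (h a) ih
        refine Nat.Coprime.prod_right fun j hj => ?_
        exact hcop (by rintro rfl; exact ha hj)
  exact key univ

lemma modEq_prod_of_forall (D : ι → ℕ) (hcop : Pairwise (Function.onFun Nat.Coprime D)) {a b : ℕ}
    (h : ∀ i, a % D i = b % D i) : a ≡ b [MOD ∏ i, D i] := by
  wlog hab : a ≤ b generalizing a b
  · exact (this (fun i => (h i).symm) (by omega)).symm
  refine (Nat.modEq_iff_dvd' hab).2 (prod_dvd_of_pairwise D hcop fun i => ?_)
  exact (Nat.modEq_iff_dvd' hab).1 (h i)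

/-- Chinese remainder count: the number of `y < ∏ D` whose residues lie in prescribed sets. -/
theorem card_filter_residues (D : ι → ℕ) (hpos : ∀ i, 0 < D i)
    (hcop : Pairwise (Function.onFun Nat.Coprime D)) (p : ι → ℕ → Prop)
    [∀ i, DecidablePred (p i)] :
    ((range (∏ i, D i)).filter (fun y => ∀ i, p i (y % D i))).card
      = ∏ i, ((range (D i)).filter (p i)).card := by
  classical
  rw [← Fintype.card_piFinset]
  refine card_bij (fun y _ i => y % D i) ?_ ?_ ?_
  · intro y hy
    rw [Fintype.mem_piFinset]
    intro i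
    rw [mem_filter] at hy
    rw [mem_filter, mem_range]
    exact ⟨Nat.mod_lt _ (hpos i), hy.2 i⟩
  · intro y hy y' hy' h
    rw [mem_filter, mem_range] at hy hy'
    have h1 : y ≡ y' [MOD ∏ i, D i] :=
      modEq_prod_of_forall D hcop fun i => congrFun h i
    exact Nat.ModEq.eq_of_lt_of_lt h1 hy.1 hy'.1
  · intro f hf
    rw [Fintype.mem_piFinset] at hf
    have hne : ∀ i ∈ (univ : Finset ι), D i ≠ 0 := fun i _ => (hpos i).ne'
    have hpp : Set.Pairwise (↑(univ : Finset ι)) (Function.onFun Nat.Coprime D) :=
      fun i _ j _ hij => hcop hij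
    set y := Nat.chineseRemainderOfFinset f D univ hne hpp with hy
    have hlt := Nat.chineseRemainderOfFinset_lt_prod f D hne hpp
    have hres : ∀ i, (y : ℕ) % D i = f i := by
      intro i
      have h1 := y.2 i (mem_univ i)
      have h2 := hf i
      rw [mem_filter, mem_range] at h2
      rw [h1, Nat.mod_eq_of_lt h2.1]
    refine ⟨(y : ℕ), ?_, ?_⟩
    · rw [mem_filter, mem_range]
      refine ⟨hlt, fun i => ?_⟩
      rw [hres i]
      have h2 := hf i
      rw [mem_filter] at h2
      exact h2.2
    · funext i
      exact hres i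

end Vale.Agent.P057
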