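import Mathlib
import Vale.Agent.P057.Crt

open Finset

namespace Vale.Agent.P057

variable {ι κ : Type*} [Fintype ι] [DecidableEq ι] [Fintype κ] [DecidableEq κ]

/-- The sum of the squares of the residues of `y`. -/
def Qf (D : ι → ℕ) (y : ℕ) : ℕ := ∑ i, (y % D i) ^ 2

/-- `GoodS2 E v`: all residues of `v` modulo the `E k` lie in the level-two digit sets. -/
abbrev GoodS2 (E : κ → ℕ) (v : ℕ) : Prop := ∀ k, InS2 (E k) (v % E k)

/-- `GoodS1 D y`: all residues of `y` modulo the `D i` lie in the level-one digit sets. -/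
abbrev GoodS1 (D : ι → ℕ) (y : ℕ) : Prop := ∀ i, InS1 (D i) (y % D i)

/-- The sum of the squares of the residues of `v`. -/
def Rf (E : κ → ℕ) (v : ℕ) : ℕ := ∑ k, (v % E k) ^ 2

/-- The candidate progression-free set. -/
def setA (D : ι → ℕ) (E : κ → ℕ) (s r : ℕ) : Finset ℕ :=
  (range (∏ i, D i)).filter
    (fun y => GoodS1 D y ∧ GoodS2 E (Qf D y + s) ∧ Rf E (Qf D y + s) = r)

lemma third_diff_sq (a b c d : ℤ) (h1 : a + c = 2 * b) (h2 : b + d = 2 * c) :
    a ^ 2 - 3 * b ^ 2 + 3 * c ^ 2 - d ^ 2 = 0 := by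
  have ha : a = 2 * b - c := by linarith
  have hd : d = 2 * c - b := by linarith
  subst ha hd
  ring

lemma fourth_diff_sq (a b c d e : ℤ) (h1 : a - 3 * b + 3 * c - d = 0)
    (h2 : b - 3 * c + 3 * d - e = 0) :
    a ^ 2 - 4 * b ^ 2 + 6 * c ^ 2 - 4 * d ^ 2 + e ^ 2 = 6 * (a - 2 * b + c) ^ 2 := by
  have hd : d = a - 3 * b + 3 * c := by linarith
  have he : e = b - 3 * c + 3 * d := by linarith
  subst he
  subst hd
  ring

omit [DecidableEq ι] in
/-- The sequence of squared digit sums along a progression has vanishing third differences. -/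
lemma Qf_third (D : ι → ℕ) (hD : ∀ i, D i % 2 = 1) (y0 y1 y2 y3 y4 : ℕ)
    (h02 : y0 + y2 = 2 * y1) (h13 : y1 + y3 = 2 * y2) (h24 : y2 + y4 = 2 * y3)
    (h0 : GoodS1 D y0) (h1 : GoodS1 D y1) (h2 : GoodS1 D y2) (h3 : GoodS1 D y3)
    (h4 : GoodS1 D y4) :
    ((Qf D y0 : ℤ) - 3 * (Qf D y1 : ℤ) + 3 * (Qf D y2 : ℤ) - (Qf D y3 : ℤ) = 0) ∧
    ((Qf D y1 : ℤ) - 3 * (Qf D y2 : ℤ) + 3 * (Qf D y3 : ℤ) - (Qf D y4 : ℤ) = 0) := by
  have key : ∀ i, ((y0 % D i : ℕ) : ℤ) + ((y2 % D i : ℕ) : ℤ) = 2 * ((y1 % D i : ℕ) : ℤ) ∧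
      ((y1 % D i : ℕ) : ℤ) + ((y3 % D i : ℕ) : ℤ) = 2 * ((y2 % D i : ℕ) : ℤ) ∧
      ((y2 % D i : ℕ) : ℤ) + ((y4 % D i : ℕ) : ℤ) = 2 * ((y3 % D i : ℕ) : ℤ) := fun i =>
    digit_ap (D i) (hD i) y0 y1 y2 y3 y4 h02 h13 h24 (h0 i) (h1 i) (h2 i) (h3 i) (h4 i)
  unfold Qf
  push_cast
  constructor
  · rw [mul_sum, mul_sum, ← sum_sub_distrib, ← sum_add_distrib, ← sum_sub_distrib]
    refine sum_eq_zero fun i _ => ?_
    exact third_diff_sq _ _ _ _ (key i).1 (key i).2.1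
  · rw [mul_sum, mul_sum, ← sum_sub_distrib, ← sum_add_distrib, ← sum_sub_distrib]
    refine sum_eq_zero fun i _ => ?_
    exact third_diff_sq _ _ _ _ (key i).2.1 (key i).2.2

/-- The main step: the sets `setA` contain no `5`-term progression. -/
theorem noAP_setA (D : ι → ℕ) (E : κ → ℕ) (hD : ∀ i, D i % 2 = 1)
    (hDc : Pairwise (Function.onFun Nat.Coprime D))
    (hEc : Pairwise (Function.onFun Nat.Coprime E))
    (hQ : ∀ y, Qf D y < ∏ k, E k) (s r : ℕ) : NoAP 5 (setA D E s r) := by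
  intro a d hd hall
  have mem : ∀ j, j < 5 → (a + j * d) < ∏ i, D i ∧ GoodS1 D (a + j * d) ∧
      GoodS2 E (Qf D (a + j * d) + s) ∧ Rf E (Qf D (a + j * d) + s) = r := by
    intro j hj
    have := hall j hj
    unfold setA at this
    rw [mem_filter, mem_range] at this
    exact this
  obtain ⟨b0, s0, g0, r0⟩ := mem 0 (by norm_num)
  obtain ⟨b1, s1, g1, r1⟩ := mem 1 (by norm_num)
  obtain ⟨b2, s2, g2, r2⟩ := mem 2 (by norm_num)
  obtain ⟨b3, s3, g3, r3⟩ := mem 3 (by norm_num)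
  obtain ⟨b4, s4, g4, r4⟩ := mem 4 (by norm_num)
  set y0 := a + 0 * d with hy0
  set y1 := a + 1 * d with hy1
  set y2 := a + 2 * d with hy2
  set y3 := a + 3 * d with hy3
  set y4 := a + 4 * d with hy4
  have h02 : y0 + y2 = 2 * y1 := by rw [hy0, hy1, hy2]; ring
  have h13 : y1 + y3 = 2 * y2 := by rw [hy1, hy2, hy3]; ring
  have h24 : y2 + y4 = 2 * y3 := by rw [hy2, hy3, hy4]; ring
  obtain ⟨t1, t2⟩ := Qf_third D hD y0 y1 y2 y3 y4 h02 h13 h24 s0 s1 s2 s3 s4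
  -- the shifted sequences
  have t1' : ((Qf D y0 + s : ℕ) : ℤ) - 3 * ((Qf D y1 + s : ℕ) : ℤ) + 3 * ((Qf D y2 + s : ℕ) : ℤ)
      - ((Qf D y3 + s : ℕ) : ℤ) = 0 := by push_cast; linarith
  have t2' : ((Qf D y1 + s : ℕ) : ℤ) - 3 * ((Qf D y2 + s : ℕ) : ℤ) + 3 * ((Qf D y3 + s : ℕ) : ℤ)
      - ((Qf D y4 + s : ℕ) : ℤ) = 0 := by push_cast; linarith
  have d1 := fun k => digit_third (E k) _ _ _ _ t1' (g0 k) (g1 k) (g2 k) (g3 k)
  have d2 := fun k => digit_third (E k) _ _ _ _ t2' (g1 k) (g2 k) (g3 k) (g4 k)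
  set T : Fin 5 → κ → ℤ := fun j k => ((((Qf D (a + (j : ℕ) * d) + s) % E k : ℕ)) : ℤ) with hT
  have eT0 : ∀ k, T 0 k = (((Qf D y0 + s) % E k : ℕ) : ℤ) := fun k => rfl
  have eT1 : ∀ k, T 1 k = (((Qf D y1 + s) % E k : ℕ) : ℤ) := fun k => rfl
  have eT2 : ∀ k, T 2 k = (((Qf D y2 + s) % E k : ℕ) : ℤ) := fun k => rfl
  have eT3 : ∀ k, T 3 k = (((Qf D y3 + s) % E k : ℕ) : ℤ) := fun k => rfl
  have eT4 : ∀ k, T 4 k = (((Qf D y4 + s) % E k : ℕ) : ℤ) := fun k => rfl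
  have d1' : ∀ k, T 0 k - 3 * T 1 k + 3 * T 2 k - T 3 k = 0 := by
    intro k; rw [eT0, eT1, eT2, eT3]; exact d1 k
  have d2' : ∀ k, T 1 k - 3 * T 2 k + 3 * T 3 k - T 4 k = 0 := by
    intro k; rw [eT1, eT2, eT3, eT4]; exact d2 k
  have sumT : ∀ j : Fin 5, ∑ k, (T j k) ^ 2 = (r : ℤ) := by
    intro j
    have := (mem j j.isLt).2.2.2
    unfold Rf at this
    rw [← this]
    push_cast
    rfl
  -- vanishing second differences
  have sec : ∀ k, T 0 k - 2 * T 1 k + T 2 k = 0 := by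
    have h : ∑ k, (6 * (T 0 k - 2 * T 1 k + T 2 k) ^ 2) = 0 := by
      have e : ∀ k, 6 * (T 0 k - 2 * T 1 k + T 2 k) ^ 2 =
          T 0 k ^ 2 - 4 * T 1 k ^ 2 + 6 * T 2 k ^ 2 - 4 * T 3 k ^ 2 + T 4 k ^ 2 :=
        fun k => (fourth_diff_sq _ _ _ _ _ (d1' k) (d2' k)).symm
      simp_rw [e]
      rw [sum_add_distrib, sum_sub_distrib, sum_add_distrib, sum_sub_distrib, ← mul_sum, ← mul_sum,
        ← mul_sum, sumT 0, sumT 1, sumT 2, sumT 3, sumT 4]
      ring
    intro k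
    have h2 := (sum_eq_zero_iff_of_nonneg (fun k _ => by positivity)).1 h k (mem_univ k)
    have h3 : (T 0 k - 2 * T 1 k + T 2 k) ^ 2 = 0 := by linarith
    exact pow_eq_zero_iff (two_ne_zero) |>.1 h3
  -- constant digits
  have con : ∀ k, T 1 k = T 0 k := by
    have h : ∑ k, (2 * (T 1 k - T 0 k) ^ 2) = 0 := by
      have e : ∀ k, 2 * (T 1 k - T 0 k) ^ 2 = T 0 k ^ 2 - 2 * T 1 k ^ 2 + T 2 k ^ 2 := by
        intro k
        have h5 : T 2 k = 2 * T 1 k - T 0 k := by linarith [sec k]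
        rw [h5]; ring
      simp_rw [e]
      rw [sum_add_distrib, sum_sub_distrib, ← mul_sum, sumT 0, sumT 1, sumT 2]
      ring
    intro k
    have h2 := (sum_eq_zero_iff_of_nonneg (fun k _ => by positivity)).1 h k (mem_univ k)
    have h3 : (T 1 k - T 0 k) ^ 2 = 0 := by linarith
    have h4 := pow_eq_zero_iff (two_ne_zero) |>.1 h3
    linarith
  have con2 : ∀ k, T 2 k = T 1 k := by
    intro k
    have := sec k
    have := con k
    linarith
  -- equal values of the quadratic form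
  have eqQ : ∀ u v : ℕ, u < ∏ k, E k → v < ∏ k, E k →
      (∀ k, (u + s) % E k = (v + s) % E k) → u = v := by
    intro u v hu hv h
    have h1 := modEq_prod_of_forall E hEc h
    have h2 : u ≡ v [MOD ∏ k, E k] := Nat.ModEq.add_right_cancel' s h1
    exact Nat.ModEq.eq_of_lt_of_lt h2 hu hv
  have q01 : Qf D y0 = Qf D y1 := by
    refine eqQ _ _ (hQ _) (hQ _) fun k => ?_
    have := con k
    rw [eT0, eT1] at this
    exact_mod_cast this.symm
  have q12 : Qf D y1 = Qf D y2 := by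
    refine eqQ _ _ (hQ _) (hQ _) fun k => ?_
    have := con2 k
    rw [eT1, eT2] at this
    exact_mod_cast this.symm
  -- digits equal
  have ap := fun i => digit_ap (D i) (hD i) y0 y1 y2 y3 y4 h02 h13 h24 (s0 i) (s1 i) (s2 i)
    (s3 i) (s4 i)
  have eq01 : ∀ i, y0 % D i = y1 % D i := by
    have h : ∑ i, (2 * (((y1 % D i : ℕ) : ℤ) - ((y0 % D i : ℕ) : ℤ)) ^ 2) = 0 := by
      have e : ∀ i, 2 * (((y1 % D i : ℕ) : ℤ) - ((y0 % D i : ℕ) : ℤ)) ^ 2 =
          ((y0 % D i : ℕ) : ℤ) ^ 2 - 2 * ((y1 % D i : ℕ) : ℤ) ^ 2 + ((y2 % D i : ℕ) : ℤ) ^ 2 := by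
        intro i
        have h5 : ((y2 % D i : ℕ) : ℤ) = 2 * ((y1 % D i : ℕ) : ℤ) - ((y0 % D i : ℕ) : ℤ) := by
          linarith [(ap i).1]
        rw [h5]; ring
      simp_rw [e]
      rw [sum_add_distrib, sum_sub_distrib, ← mul_sum]
      have hq0 : ∑ i, ((y0 % D i : ℕ) : ℤ) ^ 2 = (Qf D y0 : ℤ) := by unfold Qf; push_cast; rfl
      have hq1 : ∑ i, ((y1 % D i : ℕ) : ℤ) ^ 2 = (Qf D y1 : ℤ) := by unfold Qf; push_cast; rfl
      have hq2 : ∑ i, ((y2 % D i : ℕ) : ℤ) ^ 2 = (Qf D y2 : ℤ) := by unfold Qf; push_cast; rfl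
      rw [hq0, hq1, hq2, ← q12, ← q01]
      ring
    intro i
    have h2 := (sum_eq_zero_iff_of_nonneg (fun k _ => by positivity)).1 h i (mem_univ i)
    have h3 : (((y1 % D i : ℕ) : ℤ) - ((y0 % D i : ℕ) : ℤ)) ^ 2 = 0 := by linarith
    have h4 := pow_eq_zero_iff (two_ne_zero) |>.1 h3
    have h6 : ((y0 % D i : ℕ) : ℤ) = ((y1 % D i : ℕ) : ℤ) := by linarith
    exact_mod_cast h6
  have h7 := modEq_prod_of_forall D hDc eq01
  have h8 := Nat.ModEq.eq_of_lt_of_lt h7 b0 b1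
  rw [hy0, hy1] at h8
  omega


omit [DecidableEq κ] in
lemma goodS2_periodic (E : κ → ℕ) : Function.Periodic (GoodS2 E) (∏ k, E k) := by
  intro x
  apply propext
  have h : ∀ k, (x + ∏ k, E k) % E k = x % E k := by
    intro k
    rw [Nat.add_mod, Nat.mod_eq_zero_of_dvd (dvd_prod_of_mem E (mem_univ k)), add_zero,
      Nat.mod_mod]
  simp only [GoodS2, h]

omit [DecidableEq κ] in
lemma card_shift (E : κ → ℕ) (u : ℕ) :
    ((range (∏ k, E k)).filter (fun s => GoodS2 E (u + s))).card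
      = ((range (∏ k, E k)).filter (GoodS2 E)).card := by
  classical
  have h1 := Nat.filter_Ico_card_eq_of_periodic u (∏ k, E k) (GoodS2 E) (goodS2_periodic E)
  have h2 := Nat.filter_Ico_card_eq_of_periodic 0 (∏ k, E k) (GoodS2 E) (goodS2_periodic E)
  rw [zero_add, ← range_eq_Ico] at h2
  rw [h2, ← h1]
  refine card_bij (fun s _ => u + s) ?_ ?_ ?_
  · intro s hs
    rw [mem_filter, mem_range] at hs
    rw [mem_filter, mem_Ico]
    exact ⟨⟨by omega, by omega⟩, hs.2⟩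
  · intro a _ b _ h
    omega
  · intro b hb
    rw [mem_filter, mem_Ico] at hb
    refine ⟨b - u, ?_, by omega⟩
    rw [mem_filter, mem_range]
    refine ⟨by omega, ?_⟩
    have : u + (b - u) = b := by omega
    rw [this]
    exact hb.2

omit [DecidableEq κ] in
lemma Rf_le (E : κ → ℕ) (hE : ∀ k, 0 < E k) (v : ℕ) : Rf E v ≤ ∑ k, (E k) ^ 2 := by
  unfold Rf
  refine sum_le_sum fun k _ => ?_
  exact Nat.pow_le_pow_left (Nat.mod_lt _ (hE k)).le 2

/-- The counting theorem: some set `setA D E s r` is large. -/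
theorem exists_large (D : ι → ℕ) (E : κ → ℕ) (hD : ∀ i, D i % 2 = 1)
    (hDc : Pairwise (Function.onFun Nat.Coprime D)) (hE : ∀ k, 0 < E k)
    (hEc : Pairwise (Function.onFun Nat.Coprime E))
    (hQ : ∀ y, Qf D y < ∏ k, E k) :
    ∃ A : Finset ℕ, A ⊆ range (∏ i, D i) ∧ NoAP 5 A ∧
      (∏ i, ((range (D i)).filter (InS1 (D i))).card) *
        (∏ k, ((range (E k)).filter (InS2 (E k))).card)
        ≤ (∏ k, E k) * ((∑ k, (E k) ^ 2) + 1) * A.card := by
  classical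
  have hDpos : ∀ i, 0 < D i := fun i => by have := hD i; omega
  set N1 := ∏ i, D i with hN1
  set M := ∏ k, E k with hM
  have hMpos : 0 < M := prod_pos fun k _ => hE k
  set R := ∑ k, (E k) ^ 2 with hR
  set Y := (range N1).filter (GoodS1 D) with hY
  set W := (range M).filter (GoodS2 E) with hW
  have cardY : Y.card = ∏ i, ((range (D i)).filter (InS1 (D i))).card :=
    card_filter_residues D hDpos hDc (fun i => InS1 (D i))
  have cardW : W.card = ∏ k, ((range (E k)).filter (InS2 (E k))).card :=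
    card_filter_residues E hE hEc (fun k => InS2 (E k))
  rw [← cardY, ← cardW]
  -- the double count
  set Z : ℕ → Finset ℕ := fun s => Y.filter (fun y => GoodS2 E (Qf D y + s)) with hZ
  have dbl : ∑ s ∈ range M, (Z s).card = Y.card * W.card := by
    have h1 : ∀ s, (Z s).card = ∑ y ∈ Y, if GoodS2 E (Qf D y + s) then 1 else 0 := by
      intro s
      rw [hZ, card_filter]
    simp_rw [h1]
    rw [sum_comm]
    have h2 : ∀ y ∈ Y, (∑ s ∈ range M, if GoodS2 E (Qf D y + s) then 1 else 0) = W.card := by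
      intro y _
      rw [← card_filter, hW]
      exact card_shift E (Qf D y)
    rw [sum_congr rfl h2, sum_const, smul_eq_mul]
  obtain ⟨s, hs, hsZ⟩ : ∃ s ∈ range M, Y.card * W.card ≤ M * (Z s).card := by
    refine exists_le_of_sum_le (nonempty_range_iff.2 hMpos.ne') ?_
    rw [sum_const, card_range, smul_eq_mul]
    rw [← mul_sum (range M) (fun s => (Z s).card) M, dbl]
  -- the pigeonhole on the value of the norm
  have hmaps : ∀ y ∈ Z s, Rf E (Qf D y + s) ∈ range (R + 1) := by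
    intro y _
    rw [mem_range]
    exact Nat.lt_succ_of_le (Rf_le E hE _)
  have hfib := card_eq_sum_card_fiberwise hmaps
  obtain ⟨r, hr, hrZ⟩ : ∃ r ∈ range (R + 1), (Z s).card ≤
      (R + 1) * ((Z s).filter (fun y => Rf E (Qf D y + s) = r)).card := by
    refine exists_le_of_sum_le (nonempty_range_iff.2 (Nat.succ_ne_zero R)) ?_
    rw [sum_const, card_range, smul_eq_mul]
    rw [← mul_sum (range (R + 1)) (fun r => ((Z s).filter (fun y => Rf E (Qf D y + s) = r)).card)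
      (R + 1), ← hfib]
  have hset : (Z s).filter (fun y => Rf E (Qf D y + s) = r) = setA D E s r := by
    ext y
    simp only [hZ, hY, setA, mem_filter, mem_range]
    tauto
  rw [hset] at hrZ
  refine ⟨setA D E s r, ?_, noAP_setA D E hD hDc hEc hQ s r, ?_⟩
  · intro y hy
    unfold setA at hy
    rw [mem_filter] at hy
    exact hy.1
  · calc Y.card * W.card ≤ M * (Z s).card := hsZ
      _ ≤ M * ((R + 1) * (setA D E s r).card) := Nat.mul_le_mul_left _ hrZ
      _ = M * (R + 1) * (setA D E s r).card := by ring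

end Vale.Agent.P057
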