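import Mathlib

open Finset Real

namespace Vale.Agent.P057

/-- The elementary estimate behind `many_primes`. -/
lemma primes_numeric {X K : ℝ} (hX : 1000000 ≤ X) (hK : 3 * K ≤ 4 * log X) :
    log (3 * X + 1) + 2 * √(3 * X) * log (3 * X) + K * log (3 * X) < X * log 2 := by
  set z := √(√(3 * X)) with hz
  have hX3 : 0 < 3 * X := by linarith
  have hs : √(3 * X) = z ^ 2 := by
    rw [hz, Real.sq_sqrt (Real.sqrt_nonneg _)]
  have h4 : z ^ 4 = 3 * X := by
    have : z ^ 4 = (z ^ 2) ^ 2 := by ring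
    rw [this, ← hs, Real.sq_sqrt hX3.le]
  have hz0 : 0 ≤ z := Real.sqrt_nonneg _
  have hz40 : 40 ≤ z := by
    by_contra hlt
    push Not at hlt
    have : z ^ 4 < 40 ^ 4 := by
      exact pow_lt_pow_left₀ hlt hz0 (by norm_num)
    rw [h4] at this
    norm_num at this
    linarith
  have hlog3 : log (3 * X) ≤ 4 * z := by
    rw [← h4, Real.log_pow]
    have := Real.log_le_sub_one_of_pos (show 0 < z by linarith)
    push_cast
    linarith
  have hlogpos : 0 ≤ log (3 * X) := Real.log_nonneg (by linarith)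
  have hlog31 : log (3 * X + 1) ≤ log (3 * X) + 1 := by
    have h1 : log (3 * X + 1) ≤ log (2 * (3 * X)) :=
      Real.log_le_log (by linarith) (by linarith)
    rw [Real.log_mul (by norm_num) hX3.ne'] at h1
    have := Real.log_two_lt_d9
    linarith
  have hlogX : log X ≤ log (3 * X) := Real.log_le_log (by linarith) (by linarith)
  have hK' : K ≤ (16 / 3) * z := by
    have : 3 * K ≤ 4 * (4 * z) := by linarith
    linarith
  have hlog2 : (69 : ℝ) / 100 < log 2 := by
    have := Real.log_two_gt_d9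
    linarith
  have hXpos : 0 < X := by linarith
  have hmain : X * log 2 ≥ X * (69 / 100) := by
    exact mul_le_mul_of_nonneg_left hlog2.le hXpos.le
  have hXz : X = z ^ 4 / 3 := by linarith
  have hterm2 : 2 * √(3 * X) * log (3 * X) ≤ 2 * z ^ 2 * (4 * z) := by
    rw [hs]
    exact mul_le_mul_of_nonneg_left hlog3 (by positivity)
  have hterm3 : K * log (3 * X) ≤ (16 / 3) * z * (4 * z) := by
    by_cases hKneg : K ≤ 0
    · have h1 : K * log (3 * X) ≤ 0 := mul_nonpos_of_nonpos_of_nonneg hKneg hlogpos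
      have h2 : 0 ≤ (16 / 3) * z * (4 * z) := by positivity
      linarith
    · push Not at hKneg
      exact mul_le_mul hK' hlog3 hlogpos (by positivity)
  have hz3 : z ^ 4 ≥ 40 * z ^ 3 := by
    have : z ^ 4 = z * z ^ 3 := by ring
    rw [this]
    exact mul_le_mul_of_nonneg_right hz40 (by positivity)
  have hz2 : z ^ 3 ≥ 40 * z ^ 2 := by
    have : z ^ 3 = z * z ^ 2 := by ring
    rw [this]
    exact mul_le_mul_of_nonneg_right hz40 (by positivity)
  have hz1 : z ^ 2 ≥ 40 * z := by
    have : z ^ 2 = z * z := by ring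
    rw [this]
    exact mul_le_mul_of_nonneg_right hz40 (by positivity)
  rw [hXz] at hmain
  nlinarith

/-- Many primes between `x` and `3 x`, from Chebyshev bounds. -/
theorem many_primes (x k : ℕ) (hx : 1000000 ≤ x) (hk : 3 * (k : ℝ) ≤ 4 * log x) :
    ∃ E : Fin k → ℕ, Function.Injective E ∧ ∀ j, (E j).Prime ∧ x < E j ∧ E j ≤ 3 * x := by
  classical
  set S := (Ioc x (3 * x)).filter Nat.Prime with hS
  have hcard : k ≤ S.card := by
    by_contra hlt
    push Not at hlt
    have hX : (1000000 : ℝ) ≤ (x : ℝ) := by exact_mod_cast hx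
    have hnum := primes_numeric hX hk
    have hsplit : Chebyshev.theta ((3 * x : ℕ) : ℝ) =
        Chebyshev.theta (x : ℝ) + ∑ p ∈ S, log p := by
      rw [Chebyshev.theta_eq_sum_primesLE_log, Chebyshev.theta_eq_sum_primesLE_log]
      have hdisj : Disjoint (Nat.primesLE x) S := by
        rw [disjoint_left]
        intro p hp hp'
        rw [Nat.mem_primesLE] at hp
        rw [hS, mem_filter, mem_Ioc] at hp'
        omega
      rw [← sum_union hdisj]
      refine sum_congr ?_ fun _ _ => rfl
      ext p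
      rw [mem_union, Nat.mem_primesLE, Nat.mem_primesLE, hS, mem_filter, mem_Ioc]
      constructor
      · rintro ⟨h1, h2⟩
        by_cases h3 : p ≤ x
        · exact Or.inl ⟨h3, h2⟩
        · exact Or.inr ⟨⟨by omega, h1⟩, h2⟩
      · rintro (⟨h1, h2⟩ | ⟨⟨_, h1⟩, h2⟩)
        · exact ⟨by omega, h2⟩
        · exact ⟨h1, h2⟩
    have hupper : ∑ p ∈ S, log (p : ℝ) ≤ S.card * log (3 * (x : ℝ)) := by
      have : ∀ p ∈ S, log (p : ℝ) ≤ log (3 * (x : ℝ)) := by
        intro p hp
        rw [hS, mem_filter, mem_Ioc] at hp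
        have h1 : (0 : ℝ) < p := by exact_mod_cast hp.2.pos
        have h2 : (p : ℝ) ≤ 3 * x := by exact_mod_cast hp.1.2
        exact Real.log_le_log h1 h2
      have h2 := sum_le_card_nsmul S _ _ this
      simpa using h2
    have hlower := Chebyshev.theta_ge (3 * x)
    have hthetax := Chebyshev.theta_le_log4_mul_x (x := (x : ℝ)) (by positivity)
    rw [hsplit] at hlower
    push_cast at hlower
    have hlog4 : log (4 : ℝ) = 2 * log 2 := by
      rw [show (4 : ℝ) = 2 ^ 2 by norm_num, Real.log_pow]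
      norm_num
    rw [hlog4] at hthetax
    have hlogpos : 0 ≤ log (3 * (x : ℝ)) := Real.log_nonneg (by linarith)
    have hcardk : (S.card : ℝ) ≤ k := by exact_mod_cast hlt.le
    have h5 : (S.card : ℝ) * log (3 * (x : ℝ)) ≤ k * log (3 * (x : ℝ)) :=
      mul_le_mul_of_nonneg_right hcardk hlogpos
    nlinarith
  obtain ⟨T, hTS, hT⟩ := exists_subset_card_eq hcard
  refine ⟨fun j => T.orderEmbOfFin hT j, (T.orderEmbOfFin hT).injective, fun j => ?_⟩
  have h1 := hTS (T.orderEmbOfFin_mem hT j)
  rw [hS, mem_filter, mem_Ioc] at h1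
  exact ⟨h1.2, h1.1.1, h1.1.2⟩

end Vale.Agent.P057
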