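import Mathlib
import Vale.Agent.P057.Core
import Vale.Agent.P057.Primes

open Finset Real

namespace Vale.Agent.P057

/-- Weierstrass product inequality. -/
lemma weierstrass {ι : Type*} (s : Finset ι) (a : ι → ℝ) (h0 : ∀ i ∈ s, 0 ≤ a i)
    (h1 : ∀ i ∈ s, a i ≤ 1) : 1 - ∑ i ∈ s, a i ≤ ∏ i ∈ s, (1 - a i) := by
  classical
  induction s using Finset.induction_on with
  | empty => simp
  | insert b s hb ih =>
    rw [sum_insert hb, prod_insert hb]
    have hih := ih (fun i hi => h0 i (mem_insert_of_mem hi))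
      (fun i hi => h1 i (mem_insert_of_mem hi))
    have ha0 := h0 b (mem_insert_self _ _)
    have ha1 := h1 b (mem_insert_self _ _)
    have hS : 0 ≤ ∑ i ∈ s, a i := sum_nonneg fun i hi => h0 i (mem_insert_of_mem hi)
    nlinarith [mul_le_mul_of_nonneg_left hih (sub_nonneg.2 ha1), mul_nonneg ha0 hS]

/-- The counting bound in real numbers. -/
theorem count_bound {m k : ℕ} (D : Fin m → ℕ) (E : Fin k → ℕ) (hD : ∀ i, D i % 2 = 1)
    (hDc : Pairwise (Function.onFun Nat.Coprime D)) (hE : ∀ j, 0 < E j)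
    (hEc : Pairwise (Function.onFun Nat.Coprime E))
    (hQ : ∀ y, Qf D y < ∏ j, E j) (hm : ∀ i, 2 * m ≤ D i) :
    ∃ A : Finset ℕ, A ⊆ range (∏ i, D i) ∧ NoAP 5 A ∧
      (7 / 12 : ℝ) ^ m * ((∏ i, D i : ℕ) : ℝ) / 2 / 4 ^ k ≤
        (((∑ j, (E j) ^ 2) + 1 : ℕ) : ℝ) * (A.card : ℝ) := by
  obtain ⟨A, hA, hNo, hle⟩ := exists_large D E hD hDc hE hEc hQ
  refine ⟨A, hA, hNo, ?_⟩
  have hDpos : ∀ i, (0 : ℝ) < D i := fun i => by
    have := hD i
    have h : 0 < D i := by omega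
    exact_mod_cast h
  have c1 : (7 / 12 : ℝ) ^ m * ((∏ i, D i : ℕ) : ℝ) / 2 ≤
      ((∏ i, ((range (D i)).filter (InS1 (D i))).card : ℕ) : ℝ) := by
    have each : ∀ i, (7 / 12 : ℝ) * ((D i : ℝ) * (1 - 1 / (D i : ℝ))) ≤
        (((range (D i)).filter (InS1 (D i))).card : ℝ) := by
      intro i
      have h := card_S1_ge (D i) (hD i)
      have h' : 7 * (D i : ℝ) ≤ 12 * (((range (D i)).filter (InS1 (D i))).card : ℝ) + 6 := by
        exact_mod_cast h
      have h3 : (D i : ℝ) * (1 - 1 / (D i : ℝ)) = (D i : ℝ) - 1 := by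
        field_simp [(hDpos i).ne']
      rw [h3]
      linarith
    have hone : ∀ i, (1 : ℝ) ≤ D i := fun i => by
      have := hD i
      have h : 1 ≤ D i := by omega
      exact_mod_cast h
    have hprod : ∏ i, ((7 / 12 : ℝ) * ((D i : ℝ) * (1 - 1 / (D i : ℝ)))) ≤
        ∏ i, (((range (D i)).filter (InS1 (D i))).card : ℝ) := by
      refine prod_le_prod (fun i _ => ?_) (fun i _ => each i)
      have h1 : 0 ≤ 1 - 1 / (D i : ℝ) := by
        rw [sub_nonneg, div_le_one (hDpos i)]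
        exact hone i
      have := hDpos i
      positivity
    have hwei := weierstrass (univ : Finset (Fin m)) (fun i => 1 / (D i : ℝ))
      (fun i _ => (one_div_pos.2 (hDpos i)).le)
      (fun i _ => by rw [div_le_one (hDpos i)]; exact hone i)
    have hsum : ∑ i, 1 / (D i : ℝ) ≤ 1 / 2 := by
      by_cases hm0 : m = 0
      · subst hm0
        simp
      · have hmpos : (0 : ℝ) < m := by
          have : 0 < m := Nat.pos_of_ne_zero hm0
          exact_mod_cast this
        have h1 : ∀ i ∈ (univ : Finset (Fin m)), 1 / (D i : ℝ) ≤ 1 / (2 * (m : ℝ)) := by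
          intro i _
          apply one_div_le_one_div_of_le (by positivity)
          exact_mod_cast hm i
        have h2 := sum_le_card_nsmul _ _ _ h1
        rw [card_univ, Fintype.card_fin, nsmul_eq_mul] at h2
        have h3 : (m : ℝ) * (1 / (2 * (m : ℝ))) = 1 / 2 := by
          field_simp
        linarith
    have hprodD : (0 : ℝ) ≤ ∏ i, (D i : ℝ) := prod_nonneg fun i _ => (hDpos i).le
    have hmain : ∏ i, ((7 / 12 : ℝ) * ((D i : ℝ) * (1 - 1 / (D i : ℝ)))) =
        (7 / 12 : ℝ) ^ m * ((∏ i, (D i : ℝ)) * ∏ i, (1 - 1 / (D i : ℝ))) := by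
      rw [prod_mul_distrib, prod_mul_distrib, prod_const, card_univ, Fintype.card_fin]
    push_cast
    calc (7 / 12 : ℝ) ^ m * (∏ i, (D i : ℝ)) / 2
        = (7 / 12 : ℝ) ^ m * ((∏ i, (D i : ℝ)) * (1 / 2)) := by ring
      _ ≤ (7 / 12 : ℝ) ^ m * ((∏ i, (D i : ℝ)) * ∏ i, (1 - 1 / (D i : ℝ))) := by
          apply mul_le_mul_of_nonneg_left _ (by positivity)
          apply mul_le_mul_of_nonneg_left _ hprodD
          linarith
      _ = _ := hmain.symm
      _ ≤ _ := hprod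
  have c2 : ((∏ j, E j : ℕ) : ℝ) / 4 ^ k ≤
      ((∏ j, ((range (E j)).filter (InS2 (E j))).card : ℕ) : ℝ) := by
    have each : ∀ j, (E j : ℝ) / 4 ≤ (((range (E j)).filter (InS2 (E j))).card : ℝ) := by
      intro j
      have h := card_S2_ge (E j) (hE j)
      have h' : (E j : ℝ) ≤ 4 * (((range (E j)).filter (InS2 (E j))).card : ℝ) := by
        exact_mod_cast h
      linarith
    push_cast
    have hprod : ∏ j, ((E j : ℝ) / 4) ≤ ∏ j, (((range (E j)).filter (InS2 (E j))).card : ℝ) :=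
      prod_le_prod (fun j _ => by positivity) (fun j _ => each j)
    have h3 : ∏ j, ((E j : ℝ) / 4) = (∏ j, (E j : ℝ)) / 4 ^ k := by
      rw [prod_div_distrib, prod_const, card_univ, Fintype.card_fin]
    rw [← h3]
    exact hprod
  have hle' : ((∏ i, ((range (D i)).filter (InS1 (D i))).card : ℕ) : ℝ) *
      ((∏ j, ((range (E j)).filter (InS2 (E j))).card : ℕ) : ℝ) ≤
      ((∏ j, E j : ℕ) : ℝ) * (((∑ j, (E j) ^ 2) + 1 : ℕ) : ℝ) * (A.card : ℝ) := by
    exact_mod_cast hle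
  have hMpos : (0 : ℝ) < ((∏ j, E j : ℕ) : ℝ) := by
    have : 0 < ∏ j, E j := prod_pos fun j _ => hE j
    exact_mod_cast this
  set M : ℝ := ((∏ j, E j : ℕ) : ℝ) with hM
  set Pp : ℝ := ((∏ i, D i : ℕ) : ℝ) with hPp
  have hPp0 : 0 ≤ Pp := Nat.cast_nonneg _
  have c0 : 0 ≤ (7 / 12 : ℝ) ^ m * Pp / 2 := by positivity
  have c3 : (7 / 12 : ℝ) ^ m * Pp / 2 * (M / 4 ^ k) ≤ M * (((∑ j, (E j) ^ 2) + 1 : ℕ) : ℝ) * (A.card : ℝ) :=
    (mul_le_mul c1 c2 (by positivity) (Nat.cast_nonneg _)).trans hle'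
  have c4 : M * ((7 / 12 : ℝ) ^ m * Pp / 2 / 4 ^ k) ≤
      M * ((((∑ j, (E j) ^ 2) + 1 : ℕ) : ℝ) * (A.card : ℝ)) := by
    calc M * ((7 / 12 : ℝ) ^ m * Pp / 2 / 4 ^ k)
        = (7 / 12 : ℝ) ^ m * Pp / 2 * (M / 4 ^ k) := by ring
      _ ≤ _ := c3
      _ = _ := by ring
  exact le_of_mul_le_mul_left c4 hMpos

/-- The product of the numbers `1 + P (w + i)`, `i < m`. -/
def Fw (P m w : ℕ) : ℕ := ∏ i ∈ range m, (1 + P * (w + i))

lemma Fw_mono (P m : ℕ) : Monotone (Fw P m) := by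
  intro a b hab
  unfold Fw
  refine prod_le_prod' fun i _ => ?_
  have : P * (a + i) ≤ P * (b + i) := Nat.mul_le_mul_left _ (by omega)
  omega

lemma Fw_tele (P m w : ℕ) : Fw P m w * (1 + P * (w + m)) = (1 + P * w) * Fw P m (w + 1) := by
  unfold Fw
  rw [← prod_range_succ (fun i => 1 + P * (w + i)) m, prod_range_succ', mul_comm]
  congr 1
  refine prod_congr rfl fun i _ => ?_
  congr 2
  ring

lemma Fw_gt (P m w : ℕ) (hm : 0 < m) (hP : 0 < P) : w < Fw P m w := by
  obtain ⟨m', rfl⟩ : ∃ m', m = m' + 1 := ⟨m - 1, by omega⟩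
  unfold Fw
  rw [prod_range_succ']
  have h1 : 0 < ∏ i ∈ range m', (1 + P * (w + (i + 1))) :=
    prod_pos fun i _ => by positivity
  have h2 : w ≤ P * (w + 0) := by
    rw [add_zero]
    exact Nat.le_mul_of_pos_left w hP
  calc w < 1 + P * (w + 0) := by omega
    _ ≤ _ := Nat.le_mul_of_pos_left _ h1

lemma exists_step (f : ℕ → ℕ) (hf : Monotone f) (w₀ N : ℕ) (h0 : f w₀ ≤ N) (h1 : ∃ w, N < f w) :
    ∃ w, w₀ ≤ w ∧ f w ≤ N ∧ N < f (w + 1) := by
  classical
  set w₁ := Nat.find h1 with hw₁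
  have hspec : N < f w₁ := Nat.find_spec h1
  have hmin : ∀ v, v < w₁ → f v ≤ N := fun v hv => by
    have := Nat.find_min h1 hv
    omega
  have hgt : w₀ < w₁ := by
    by_contra hle
    push Not at hle
    have := hf hle
    omega
  obtain ⟨w, hw⟩ : ∃ w, w₁ = w + 1 := ⟨w₁ - 1, by omega⟩
  refine ⟨w, by omega, hmin w (by omega), ?_⟩
  rw [← hw]
  exact hspec

/-- The moduli `1 + m! (w + i)` are pairwise coprime. -/
lemma D_coprime (m w : ℕ) :
    Pairwise (Function.onFun Nat.Coprime (fun i : Fin m => 1 + m.factorial * (w + (i : ℕ)))) := by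
  have key : ∀ a b : ℕ, a < b → b < m →
      Nat.Coprime (1 + m.factorial * (w + a)) (1 + m.factorial * (w + b)) := by
    intro a b hab hb
    set P := m.factorial with hP
    set g := Nat.gcd (1 + P * (w + a)) (1 + P * (w + b)) with hg
    have h1 : g ∣ 1 + P * (w + a) := Nat.gcd_dvd_left _ _
    have h2 : g ∣ 1 + P * (w + b) := Nat.gcd_dvd_right _ _
    have h3 : (1 + P * (w + b)) = (1 + P * (w + a)) + P * (b - a) := by
      have : w + b = (w + a) + (b - a) := by omega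
      rw [this, mul_add]
      ring
    have h4 : g ∣ P * (b - a) := by
      rw [h3] at h2
      exact (Nat.dvd_add_right h1).1 h2
    have hcop : Nat.Coprime g P := by
      have h5 : Nat.Coprime (1 + P * (w + a)) P := by
        simp
      exact Nat.Coprime.coprime_dvd_left h1 h5
    have h6 : g ∣ b - a := hcop.dvd_of_dvd_mul_left h4
    have h7 : (b - a) ∣ P := Nat.dvd_factorial (by omega) (by omega)
    have h8 : g ∣ P := h6.trans h7
    have h9 : g = 1 := Nat.Coprime.eq_one_of_dvd hcop h8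
    exact h9
  intro i j hij
  rcases lt_or_gt_of_ne (fun h => hij (Fin.ext h) : (i : ℕ) ≠ j) with h | h
  · exact key i j h j.2
  · exact (key j i h i.2).symm

end Vale.Agent.P057
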