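import Mathlib
import Vale.Agent.P057.Params

open Finset Real

namespace Vale.Agent.P057

lemma three_m_le_exp (m : ℕ) (hm : 8000 ≤ m) : (3 * m : ℝ) ≤ exp ((27 / 1024) * m) := by
  have hm' : (8000 : ℝ) ≤ m := by exact_mod_cast hm
  set a : ℝ := (9 / 1024) * m with ha
  have ha70 : 70 ≤ a := by rw [ha]; linarith
  have h1 : a ≤ exp a := by
    have := Real.add_one_le_exp a
    linarith
  have h2 : a ^ 3 ≤ exp a ^ 3 := pow_le_pow_left₀ (by linarith) h1 3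
  have h3 : exp a ^ 3 = exp ((27 / 1024) * m) := by
    rw [← Real.exp_nat_mul, ha]
    congr 1
    push_cast
    ring
  rw [← h3]
  have h4 : (3 * m : ℝ) = (1024 / 3) * a := by rw [ha]; ring
  rw [h4]
  have h5 : (1024 / 3) * a ≤ a ^ 3 := by nlinarith [mul_self_nonneg (a - 70), mul_nonneg (by linarith : (0:ℝ) ≤ a) (mul_self_nonneg (a - 70))]
  linarith

lemma Fm_bound (n : ℕ) (hn : 1000 ≤ n) :
    ((Fw (8 * n).factorial (8 * n) (8 * n) : ℕ) : ℝ) ≤ exp (27 * (n : ℝ) ^ 3) := by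
  set m := 8 * n with hm
  set P := m.factorial with hP
  have hm8 : 8000 ≤ m := by omega
  have hPle : P ≤ m ^ m := Nat.factorial_le_pow m
  have hPpos : 0 < P := Nat.factorial_pos m
  have hnat : Fw P m m ≤ ((3 * m) ^ (m + 1)) ^ m := by
    unfold Fw
    calc ∏ i ∈ range m, (1 + P * (m + i)) ≤ ∏ _i ∈ range m, (3 * m) ^ (m + 1) := by
          refine prod_le_prod' fun i hi => ?_
          rw [mem_range] at hi
          have h1 : P * (m + i) ≤ P * (2 * m) := Nat.mul_le_mul_left _ (by omega)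
          have h2 : 1 ≤ P * m := Nat.mul_pos hPpos (by omega)
          have h3 : 1 + P * (m + i) ≤ 3 * m * P := by nlinarith
          have h4 : 3 * m * P ≤ 3 * m * m ^ m := Nat.mul_le_mul_left _ hPle
          have h5 : m ^ m ≤ (3 * m) ^ m := Nat.pow_le_pow_left (by omega) m
          calc 1 + P * (m + i) ≤ 3 * m * P := h3
            _ ≤ 3 * m * m ^ m := h4
            _ ≤ 3 * m * (3 * m) ^ m := Nat.mul_le_mul_left _ h5
            _ = (3 * m) ^ (m + 1) := by ring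
      _ = ((3 * m) ^ (m + 1)) ^ m := by rw [prod_const, card_range]
  have hcast : ((Fw P m m : ℕ) : ℝ) ≤ (((3 * m : ℝ)) ^ (m + 1)) ^ m := by exact_mod_cast hnat
  have hexp := three_m_le_exp m hm8
  have hm0 : (0 : ℝ) ≤ 3 * m := by positivity
  have h2 : (((3 * m : ℝ)) ^ (m + 1)) ^ m ≤ ((exp ((27 / 1024) * m)) ^ (m + 1)) ^ m := by
    gcongr
  have h3 : ((exp ((27 / 1024) * m)) ^ (m + 1)) ^ m =
      exp ((27 / 1024) * m * (m + 1) * m) := by
    rw [← Real.exp_nat_mul, ← Real.exp_nat_mul]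
    congr 1
    push_cast
    ring
  have h4 : (27 / 1024 : ℝ) * m * (m + 1) * m ≤ 27 * (n : ℝ) ^ 3 := by
    have hmn : (m : ℝ) = 8 * n := by rw [hm]; push_cast; ring
    have hn' : (1000 : ℝ) ≤ n := by exact_mod_cast hn
    rw [hmn]
    have h5 : (0 : ℝ) ≤ n := by linarith
    have h6 : (8 * (n : ℝ) + 1) ≤ 2 * (8 * n) := by linarith
    have h7 : (0 : ℝ) ≤ (27 / 1024) * (8 * n) * (8 * n) := by positivity
    nlinarith [mul_le_mul_of_nonneg_left h6 h7]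
  calc ((Fw P m m : ℕ) : ℝ) ≤ _ := hcast
    _ ≤ _ := h2
    _ = _ := h3
    _ ≤ _ := Real.exp_le_exp.2 h4

/-- The sum of squares of the moduli is below the product of the second-level moduli. -/
lemma Q_lt (n N D₀ : ℕ) (hn : 1000 ≤ n) (D : Fin (8 * n) → ℕ) (E : Fin (3 * n) → ℕ) (x : ℝ)
    (hD₀ : 1 ≤ D₀) (hDpos : ∀ i, 0 < D i) (hDle : ∀ i, D i ≤ 2 * D₀)
    (hprod : ((D₀ : ℝ)) ^ (8 * n) ≤ N) (hN : log N < 27 * ((n : ℝ) + 1) ^ 3)
    (hx : exp ((9 / 4) * (n : ℝ) + 11) ≤ x) (hE : ∀ j, x < E j) :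
    ∀ y, Qf D y < ∏ j, E j := by
  intro y
  have hn' : (1000 : ℝ) ≤ n := by exact_mod_cast hn
  have hnpos : (0 : ℝ) < n := by linarith
  have hD₀' : (1 : ℝ) ≤ D₀ := by exact_mod_cast hD₀
  have hNpos : (0 : ℝ) < N := by
    have : (0 : ℝ) < (D₀ : ℝ) ^ (8 * n) := by positivity
    linarith
  set L := log (D₀ : ℝ) with hL
  have hlogle : (8 * (n : ℝ)) * L ≤ log N := by
    have h1 := Real.log_le_log (by positivity) hprod
    rw [Real.log_pow] at h1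
    push_cast at h1
    exact h1
  have hL2 : 2 * L ≤ (27 / 4) * ((n : ℝ) ^ 2 + 3 * n + 4) := by
    by_contra hcon
    push Not at hcon
    have h3 : (4 * (n : ℝ)) * ((27 / 4) * ((n : ℝ) ^ 2 + 3 * n + 4)) ≤ (4 * (n : ℝ)) * (2 * L) :=
      mul_le_mul_of_nonneg_left hcon.le (by positivity)
    nlinarith
  have hD₀sq : ((D₀ : ℝ)) ^ 2 ≤ exp ((27 / 4) * ((n : ℝ) ^ 2 + 3 * n + 4)) := by
    have h1 : ((D₀ : ℝ)) ^ 2 = exp (2 * L) := by
      rw [hL, two_mul, Real.exp_add, Real.exp_log (by linarith)]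
      ring
    rw [h1]
    exact Real.exp_le_exp.2 hL2
  have hQle : (Qf D y : ℝ) ≤ 32 * n * (D₀ : ℝ) ^ 2 := by
    have h1 : Qf D y ≤ ∑ _i : Fin (8 * n), (2 * D₀) ^ 2 := by
      unfold Qf
      refine sum_le_sum fun i _ => ?_
      exact Nat.pow_le_pow_left ((Nat.mod_lt _ (hDpos i)).le.trans (hDle i)) 2
    rw [sum_const, card_univ, Fintype.card_fin, smul_eq_mul] at h1
    have h2 : (Qf D y : ℝ) ≤ ((8 * n * (2 * D₀) ^ 2 : ℕ) : ℝ) := by exact_mod_cast h1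
    push_cast at h2
    nlinarith
  have hxpos : 0 < x := lt_of_lt_of_le (Real.exp_pos _) hx
  have hEprod : exp ((27 / 4) * (n : ℝ) ^ 2 + 33 * n) ≤ ((∏ j, E j : ℕ) : ℝ) := by
    push_cast
    have h1 : ∏ _j : Fin (3 * n), x ≤ ∏ j, (E j : ℝ) :=
      prod_le_prod (fun j _ => hxpos.le) (fun j _ => (hE j).le)
    rw [prod_const, card_univ, Fintype.card_fin] at h1
    have h2 : exp ((9 / 4) * (n : ℝ) + 11) ^ (3 * n) ≤ x ^ (3 * n) :=
      pow_le_pow_left₀ (Real.exp_pos _).le hx _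
    have h3 : exp ((9 / 4) * (n : ℝ) + 11) ^ (3 * n) = exp ((27 / 4) * (n : ℝ) ^ 2 + 33 * n) := by
      rw [← Real.exp_nat_mul]
      congr 1
      push_cast
      ring
    rw [← h3]
    exact h2.trans h1
  have hkey : 32 * (n : ℝ) * exp ((27 / 4) * ((n : ℝ) ^ 2 + 3 * n + 4)) <
      exp ((27 / 4) * (n : ℝ) ^ 2 + 33 * n) := by
    have h1 : exp ((27 / 4) * (n : ℝ) ^ 2 + 33 * n) =
        exp ((27 / 4) * ((n : ℝ) ^ 2 + 3 * n + 4)) * exp ((51 / 4) * (n : ℝ) - 27) := by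
      rw [← Real.exp_add]
      congr 1
      ring
    rw [h1, mul_comm]
    apply mul_lt_mul_of_pos_left _ (Real.exp_pos _)
    have h2 : 1 + (12 * (n : ℝ)) + (12 * (n : ℝ)) ^ 2 / 2 ≤ exp (12 * (n : ℝ)) :=
      Real.quadratic_le_exp_of_nonneg (by positivity)
    have h3 : exp (12 * (n : ℝ)) ≤ exp ((51 / 4) * (n : ℝ) - 27) :=
      Real.exp_le_exp.2 (by linarith)
    nlinarith
  have hfinal : (Qf D y : ℝ) < ((∏ j, E j : ℕ) : ℝ) := by
    calc (Qf D y : ℝ) ≤ 32 * n * (D₀ : ℝ) ^ 2 := hQle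
      _ ≤ 32 * n * exp ((27 / 4) * ((n : ℝ) ^ 2 + 3 * n + 4)) :=
          mul_le_mul_of_nonneg_left hD₀sq (by positivity)
      _ < _ := hkey
      _ ≤ _ := hEprod
  exact_mod_cast hfinal

lemma base_le_exp : (12 / 7 : ℝ) ^ 8 * 4 ^ 3 * exp (9 / 2) ≤ exp 13 := by
  have h1 : ((12 / 7 : ℝ) ^ 8 * 64) ^ 2 ≤ exp 17 := by
    have h2 : exp 17 = exp 1 ^ 17 := by
      rw [← Real.exp_nat_mul]
      norm_num
    rw [h2]
    have h3 : (2.718 : ℝ) ≤ exp 1 := by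
      have := Real.exp_one_gt_d9
      linarith
    have h4 : (2.718 : ℝ) ^ 17 ≤ exp 1 ^ 17 := pow_le_pow_left₀ (by norm_num) h3 17
    refine le_trans ?_ h4
    norm_num
  have h5 : (12 / 7 : ℝ) ^ 8 * 64 ≤ exp (17 / 2) := by
    have h6 : exp 17 = exp (17 / 2) ^ 2 := by
      rw [← Real.exp_nat_mul]
      norm_num
    rw [h6] at h1
    exact (pow_le_pow_iff_left₀ (by positivity) (Real.exp_pos _).le two_ne_zero).1 h1
  have h7 : exp 13 = exp (17 / 2) * exp (9 / 2) := by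
    rw [← Real.exp_add]
    norm_num
  rw [h7]
  have : (12 / 7 : ℝ) ^ 8 * 4 ^ 3 = (12 / 7 : ℝ) ^ 8 * 64 := by norm_num
  rw [this]
  exact mul_le_mul_of_nonneg_right h5 (Real.exp_pos _).le

lemma small_le_exp (n : ℕ) (hn : 100000 ≤ n) : 448 * (n : ℝ) * exp 22 ≤ exp ((n : ℝ) / 20) := by
  have hn' : (100000 : ℝ) ≤ n := by exact_mod_cast hn
  have h1 : exp 22 ≤ exp ((n : ℝ) / 40) := Real.exp_le_exp.2 (by linarith)
  set a : ℝ := (n : ℝ) / 120 with ha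
  have ha0 : 0 ≤ a := by rw [ha]; positivity
  have ha1 : 800 ≤ a := by rw [ha]; linarith
  have h2 : a ≤ exp a := by
    have := Real.add_one_le_exp a
    linarith
  have h3 : a ^ 3 ≤ exp a ^ 3 := pow_le_pow_left₀ ha0 h2 3
  have h4 : exp a ^ 3 = exp ((n : ℝ) / 40) := by
    rw [← Real.exp_nat_mul, ha]
    congr 1
    push_cast
    ring
  rw [h4] at h3
  have h5 : 448 * (n : ℝ) ≤ a ^ 3 := by
    have h6 : (n : ℝ) = 120 * a := by rw [ha]; ring
    rw [h6]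
    have h7 : a ^ 2 ≥ 800 * 800 := by nlinarith
    nlinarith
  have h8 : exp ((n : ℝ) / 20) = exp ((n : ℝ) / 40) * exp ((n : ℝ) / 40) := by
    rw [← Real.exp_add]
    congr 1
    ring
  rw [h8]
  exact mul_le_mul (h5.trans h3) h1 (Real.exp_pos _).le (Real.exp_pos _).le

/-- The final numerical comparison. -/
lemma final_ineq (n : ℕ) (hn : 100000 ≤ n) (Nr Pp Rp Ac x : ℝ) (hNlt : Nr ≤ 2 * Pp)
    (hcount : (7 / 12 : ℝ) ^ (8 * n) * Pp / 2 / 4 ^ (3 * n) ≤ Rp * Ac)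
    (hRp : Rp ≤ 28 * n * x ^ 2) (hx0 : 0 ≤ x) (hx : x ≤ 2 * exp ((9 / 4) * (n : ℝ) + 11))
    (hAc : 0 ≤ Ac) : Nr * exp (-(261 / 20) * (n : ℝ)) ≤ Ac := by
  have hnpos : (0 : ℝ) ≤ n := Nat.cast_nonneg n
  set G : ℝ := (12 / 7 : ℝ) ^ (8 * n) * 4 ^ (3 * n) with hG
  have hGpos : 0 < G := by positivity
  have h1 : Pp ≤ 2 * G * (Rp * Ac) := by
    have h2 : (7 / 12 : ℝ) ^ (8 * n) * Pp / 2 / 4 ^ (3 * n) = Pp / (2 * G) := by
      rw [hG]
      have h3 : (7 / 12 : ℝ) = (12 / 7 : ℝ)⁻¹ := by norm_num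
      rw [h3, inv_pow]
      field_simp
    rw [h2, div_le_iff₀ (by positivity)] at hcount
    linarith
  have hx2 : x ^ 2 ≤ 4 * exp ((9 / 2) * (n : ℝ) + 22) := by
    have h3 : x ^ 2 ≤ (2 * exp ((9 / 4) * (n : ℝ) + 11)) ^ 2 := pow_le_pow_left₀ hx0 hx 2
    have h4 : (2 * exp ((9 / 4) * (n : ℝ) + 11)) ^ 2 = 4 * exp ((9 / 2) * (n : ℝ) + 22) := by
      rw [mul_pow, ← Real.exp_nat_mul]
      norm_num
      ring_nf
    linarith
  have h5 : Rp * Ac ≤ (28 * n * (4 * exp ((9 / 2) * (n : ℝ) + 22))) * Ac := by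
    apply mul_le_mul_of_nonneg_right _ hAc
    exact hRp.trans (mul_le_mul_of_nonneg_left hx2 (by positivity))
  have hbase : G * exp ((9 / 2) * (n : ℝ)) ≤ exp (13 * (n : ℝ)) := by
    have h6 := pow_le_pow_left₀ (by positivity) base_le_exp n
    have h7 : ((12 / 7 : ℝ) ^ 8 * 4 ^ 3 * exp (9 / 2)) ^ n = G * exp ((9 / 2) * (n : ℝ)) := by
      rw [mul_pow, mul_pow, hG, ← pow_mul, ← pow_mul, ← Real.exp_nat_mul, mul_comm 8 n,
        mul_comm 3 n]
      congr 2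
      ring
    have h8 : exp 13 ^ n = exp (13 * (n : ℝ)) := by
      rw [← Real.exp_nat_mul]
      congr 1
      ring
    rw [h7, h8] at h6
    exact h6
  have hsmall := small_le_exp n hn
  have hmain : Nr ≤ exp ((261 / 20) * (n : ℝ)) * Ac := by
    have h9 : exp ((9 / 2) * (n : ℝ) + 22) = exp ((9 / 2) * (n : ℝ)) * exp 22 := Real.exp_add _ _
    have h10 : exp ((261 / 20) * (n : ℝ)) = exp (13 * (n : ℝ)) * exp ((n : ℝ) / 20) := by
      rw [← Real.exp_add]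
      congr 1
      ring
    have h11 : 448 * (n : ℝ) * exp 22 * (G * exp ((9 / 2) * (n : ℝ))) ≤
        exp ((n : ℝ) / 20) * exp (13 * (n : ℝ)) :=
      mul_le_mul hsmall hbase (by positivity) (Real.exp_pos _).le
    have h12 : Nr ≤ (448 * (n : ℝ) * exp 22 * (G * exp ((9 / 2) * (n : ℝ)))) * Ac := by
      have h13 : Nr ≤ 2 * (2 * G * (Rp * Ac)) := hNlt.trans (by linarith)
      have h14 : 2 * (2 * G * (Rp * Ac)) ≤
          2 * (2 * G * ((28 * n * (4 * exp ((9 / 2) * (n : ℝ) + 22))) * Ac)) := by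
        gcongr
      refine h13.trans (h14.trans (le_of_eq ?_))
      rw [h9]
      ring
    refine h12.trans ?_
    rw [h10, mul_comm (exp (13 * (n : ℝ)))]
    exact mul_le_mul_of_nonneg_right h11 hAc
  have h15 : exp (-(261 / 20) * (n : ℝ)) * exp ((261 / 20) * (n : ℝ)) = 1 := by
    rw [← Real.exp_add]
    simp
  calc Nr * exp (-(261 / 20) * (n : ℝ))
      ≤ (exp ((261 / 20) * (n : ℝ)) * Ac) * exp (-(261 / 20) * (n : ℝ)) :=
        mul_le_mul_of_nonneg_right hmain (Real.exp_pos _).le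
    _ = Ac * (exp (-(261 / 20) * (n : ℝ)) * exp ((261 / 20) * (n : ℝ))) := by ring
    _ = Ac := by rw [h15, mul_one]

end Vale.Agent.P057
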