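import Mathlib
import Vale.Agent.P057.Crt

open Finset

namespace Vale.Agent.P057

/-- The digit set for progressions of length four: even residues in `(0, 2D/3)` together with odd
residues in `(D/9, 5D/9)`. -/
abbrev InS4 (D r : ℕ) : Prop :=
  (r % 2 = 0 ∧ 0 < r ∧ 3 * r < 2 * D) ∨ (r % 2 = 1 ∧ D < 9 * r ∧ 9 * r < 5 * D)

/-- The potential on digits: the square of `3 r - D`, plus `D ^ 2` on odd residues. -/
def g4 (D r : ℕ) : ℕ := (Int.natAbs (3 * (r : ℤ) - D)) ^ 2 + D ^ 2 * (r % 2)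

lemma g4_cast (D r : ℕ) :
    ((g4 D r : ℕ) : ℤ) = (3 * (r : ℤ) - D) ^ 2 + (D : ℤ) ^ 2 * ((r % 2 : ℕ) : ℤ) := by
  unfold g4
  push_cast
  rw [sq_abs]

/-- A `4`-term progression modulo odd `D` inside the digit set is either a genuine progression
of integers, or its two middle terms are even and its two outer terms are odd. -/
theorem digit4 (D x0 x1 x2 x3 : ℕ) (hD : D % 2 = 1)
    (h0 : InS4 D x0) (h1 : InS4 D x1) (h2 : InS4 D x2) (h3 : InS4 D x3)
    (v1 v2 : ℤ) (hv1 : (x0 : ℤ) + x2 - 2 * x1 = v1) (hv2 : (x1 : ℤ) + x3 - 2 * x2 = v2)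
    (c1 : v1 = -D ∨ v1 = 0 ∨ v1 = D) (c2 : v2 = -D ∨ v2 = 0 ∨ v2 = D) :
    (v1 = 0 ∧ v2 = 0) ∨ (x1 % 2 = 0 ∧ x2 % 2 = 0 ∧ x0 % 2 = 1 ∧ x3 % 2 = 1) := by
  unfold InS4 at h0 h1 h2 h3
  omega

/-- The potential increases strictly from the middle to the outer terms. -/
theorem pot4 (D x0 x1 x2 x3 : ℕ)
    (hcases : ((x0 : ℤ) + x2 = 2 * x1 ∧ (x1 : ℤ) + x3 = 2 * x2) ∨
      (x1 % 2 = 0 ∧ x2 % 2 = 0 ∧ x0 % 2 = 1 ∧ x3 % 2 = 1))
    (h1 : InS4 D x1) (h2 : InS4 D x2) :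
    g4 D x1 + g4 D x2 ≤ g4 D x0 + g4 D x3 ∧
      (g4 D x0 + g4 D x3 = g4 D x1 + g4 D x2 → x0 = x1) := by
  rcases hcases with ⟨e1, e2⟩ | ⟨p1, p2, p0, p3⟩
  · have hp : x0 % 2 = x2 % 2 := by omega
    have hq : x3 % 2 = x1 % 2 := by omega
    have h2' : (x2 : ℤ) = 2 * x1 - x0 := by linarith
    have h3' : (x3 : ℤ) = 3 * x1 - 2 * x0 := by linarith
    have key : ((g4 D x0 + g4 D x3 : ℕ) : ℤ) - ((g4 D x1 + g4 D x2 : ℕ) : ℤ)
        = 36 * ((x1 : ℤ) - x0) ^ 2 := by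
      push_cast
      rw [g4_cast, g4_cast, g4_cast, g4_cast, hq, ← hp, h2', h3']
      ring
    constructor
    · have : 0 ≤ ((g4 D x0 + g4 D x3 : ℕ) : ℤ) - ((g4 D x1 + g4 D x2 : ℕ) : ℤ) := by
        rw [key]
        positivity
      omega
    · intro heq
      rw [heq, sub_self] at key
      have h4 : ((x1 : ℤ) - x0) ^ 2 = 0 := by linarith
      have h5 := pow_eq_zero_iff (two_ne_zero) |>.1 h4
      omega
  · have b1 : 0 < x1 ∧ 3 * x1 < 2 * D := by
      unfold InS4 at h1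
      omega
    have b2 : 0 < x2 ∧ 3 * x2 < 2 * D := by
      unfold InS4 at h2
      omega
    have c1 : ((g4 D x1 : ℕ) : ℤ) < (D : ℤ) ^ 2 := by
      rw [g4_cast, p1]
      have h3 : (3 * (x1 : ℤ) - D) ^ 2 < (D : ℤ) ^ 2 := by
        apply sq_lt_sq' <;> omega
      simpa using h3
    have c2 : ((g4 D x2 : ℕ) : ℤ) < (D : ℤ) ^ 2 := by
      rw [g4_cast, p2]
      have h3 : (3 * (x2 : ℤ) - D) ^ 2 < (D : ℤ) ^ 2 := by
        apply sq_lt_sq' <;> omega
      simpa using h3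
    have c0 : (D : ℤ) ^ 2 ≤ ((g4 D x0 : ℕ) : ℤ) := by
      rw [g4_cast, p0]
      have := sq_nonneg (3 * (x0 : ℤ) - D)
      simp
      linarith
    have c3 : (D : ℤ) ^ 2 ≤ ((g4 D x3 : ℕ) : ℤ) := by
      rw [g4_cast, p3]
      have := sq_nonneg (3 * (x3 : ℤ) - D)
      simp
      linarith
    constructor
    · omega
    · intro heq
      omega

lemma g4_le (D r : ℕ) (h : InS4 D r) : g4 D r ≤ 2 * D ^ 2 := by
  have b : 3 * r ≤ 2 * D := by
    unfold InS4 at h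
    omega
  have h3 : (3 * (r : ℤ) - D) ^ 2 ≤ (D : ℤ) ^ 2 := by
    apply sq_le_sq' <;> omega
  have h4 : ((r % 2 : ℕ) : ℤ) ≤ 1 := by omega
  have h5 : (D : ℤ) ^ 2 * ((r % 2 : ℕ) : ℤ) ≤ (D : ℤ) ^ 2 * 1 :=
    mul_le_mul_of_nonneg_left h4 (by positivity)
  have h6 : ((g4 D r : ℕ) : ℤ) ≤ ((2 * D ^ 2 : ℕ) : ℤ) := by
    rw [g4_cast]
    have e : ((2 * D ^ 2 : ℕ) : ℤ) = 2 * (D : ℤ) ^ 2 := by push_cast; ring
    rw [e]
    linarith
  exact_mod_cast h6

/-- Counting the digit set. -/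
lemma card_S4_ge (D : ℕ) :
    5 * D ≤ 9 * ((range D).filter (InS4 D)).card + 27 := by
  have h1 : (Ico 1 ((D + 2) / 3)).image (fun a => 2 * a) ∪
      (Ico (D / 18 + 1) ((5 * D + 8) / 18)).image (fun a => 2 * a + 1) ⊆
        (range D).filter (InS4 D) := by
    intro x hx
    rw [mem_union, mem_image, mem_image] at hx
    rw [mem_filter, mem_range]
    rcases hx with ⟨a, ha, rfl⟩ | ⟨a, ha, rfl⟩
    · rw [mem_Ico] at ha
      unfold InS4
      omega
    · rw [mem_Ico] at ha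
      unfold InS4
      omega
  have h2 := card_le_card h1
  rw [card_union_of_disjoint, card_image_of_injective, card_image_of_injective, Nat.card_Ico,
    Nat.card_Ico] at h2
  · omega
  · intro a b hab; simpa using hab
  · intro a b hab; simpa using hab
  · rw [disjoint_left]
    intro x hx hx'
    rw [mem_image] at hx hx'
    obtain ⟨a, _, rfl⟩ := hx
    obtain ⟨b, _, hb⟩ := hx'
    omega

/-- A single coordinate of a `4`-term progression of integers. -/
lemma digit_pot (D : ℕ) (hD : D % 2 = 1) (y0 y1 y2 y3 : ℕ)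
    (h02 : y0 + y2 = 2 * y1) (h13 : y1 + y3 = 2 * y2)
    (h0 : InS4 D (y0 % D)) (h1 : InS4 D (y1 % D)) (h2 : InS4 D (y2 % D))
    (h3 : InS4 D (y3 % D)) :
    g4 D (y1 % D) + g4 D (y2 % D) ≤ g4 D (y0 % D) + g4 D (y3 % D) ∧
      (g4 D (y0 % D) + g4 D (y3 % D) = g4 D (y1 % D) + g4 D (y2 % D) → y0 % D = y1 % D) := by
  have hDpos : (0 : ℤ) < D := by
    have : 0 < D := by omega
    exact_mod_cast this
  obtain ⟨k1, hk1⟩ := mod_combo_second D y0 y1 y2 h02
  obtain ⟨k2, hk2⟩ := mod_combo_second D y1 y2 y3 h13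
  have b0 : 3 * (y0 % D) < 2 * D := by
    unfold InS4 at h0
    omega
  have b1 : 3 * (y1 % D) < 2 * D := by
    unfold InS4 at h1
    omega
  have b2 : 3 * (y2 % D) < 2 * D := by
    unfold InS4 at h2
    omega
  have b3 : 3 * (y3 % D) < 2 * D := by
    unfold InS4 at h3
    omega
  have c1 := multiple_cases hDpos hk1 (by omega) (by omega)
  have c2 := multiple_cases hDpos hk2 (by omega) (by omega)
  have h := digit4 D _ _ _ _ hD h0 h1 h2 h3 _ _ rfl rfl c1 c2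
  refine pot4 D _ _ _ _ ?_ h1 h2
  rcases h with ⟨r1, r2⟩ | h
  · left
    exact ⟨by linarith, by linarith⟩
  · right
    exact h

variable {ι : Type*} [Fintype ι] [DecidableEq ι]

/-- The candidate progression-free set: all digits in the digit set, and prescribed potential. -/
def setA4 (D : ι → ℕ) (r : ℕ) : Finset ℕ :=
  (range (∏ i, D i)).filter
    (fun y => (∀ i, InS4 (D i) (y % D i)) ∧ ∑ i, g4 (D i) (y % D i) = r)

/-- The sets `setA4` contain no `4`-term progression. -/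
theorem noAP_setA4 (D : ι → ℕ) (hD : ∀ i, D i % 2 = 1)
    (hDc : Pairwise (Function.onFun Nat.Coprime D)) (r : ℕ) : NoAP 4 (setA4 D r) := by
  intro a d hd hall
  have mem : ∀ j, j < 4 → (a + j * d) < ∏ i, D i ∧ (∀ i, InS4 (D i) ((a + j * d) % D i)) ∧
      ∑ i, g4 (D i) ((a + j * d) % D i) = r := by
    intro j hj
    have := hall j hj
    unfold setA4 at this
    rw [mem_filter, mem_range] at this
    exact this
  obtain ⟨b0, s0, g0⟩ := mem 0 (by norm_num)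
  obtain ⟨b1, s1, g1⟩ := mem 1 (by norm_num)
  obtain ⟨_, s2, g2⟩ := mem 2 (by norm_num)
  obtain ⟨_, s3, g3⟩ := mem 3 (by norm_num)
  set y0 := a + 0 * d with hy0
  set y1 := a + 1 * d with hy1
  set y2 := a + 2 * d with hy2
  set y3 := a + 3 * d with hy3
  have h02 : y0 + y2 = 2 * y1 := by rw [hy0, hy1, hy2]; ring
  have h13 : y1 + y3 = 2 * y2 := by rw [hy1, hy2, hy3]; ring
  have pot := fun i => digit_pot (D i) (hD i) y0 y1 y2 y3 h02 h13 (s0 i) (s1 i) (s2 i) (s3 i)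
  have hsum : ∑ i, (g4 (D i) (y1 % D i) + g4 (D i) (y2 % D i)) =
      ∑ i, (g4 (D i) (y0 % D i) + g4 (D i) (y3 % D i)) := by
    rw [sum_add_distrib, sum_add_distrib, g0, g1, g2, g3]
  have heach := (sum_eq_sum_iff_of_le (fun i _ => (pot i).1)).1 hsum
  have eq01 : ∀ i, y0 % D i = y1 % D i := fun i =>
    (pot i).2 (heach i (mem_univ i)).symm
  have h7 := modEq_prod_of_forall D hDc eq01
  have h8 := Nat.ModEq.eq_of_lt_of_lt h7 b0 b1
  rw [hy0, hy1] at h8
  omega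

/-- The pigeonhole over values of the potential. -/
theorem exists_large4 (D : ι → ℕ) (hD : ∀ i, D i % 2 = 1)
    (hDc : Pairwise (Function.onFun Nat.Coprime D)) :
    ∃ A : Finset ℕ, A ⊆ range (∏ i, D i) ∧ NoAP 4 A ∧
      ∏ i, ((range (D i)).filter (InS4 (D i))).card ≤ ((∑ i, 2 * (D i) ^ 2) + 1) * A.card := by
  classical
  have hDpos : ∀ i, 0 < D i := fun i => by
    have := hD i
    omega
  set Y := (range (∏ i, D i)).filter (fun y => ∀ i, InS4 (D i) (y % D i)) with hY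
  have cardY : Y.card = ∏ i, ((range (D i)).filter (InS4 (D i))).card :=
    card_filter_residues D hDpos hDc (fun i => InS4 (D i))
  rw [← cardY]
  set R := ∑ i, 2 * (D i) ^ 2 with hR
  have hmaps : ∀ y ∈ Y, ∑ i, g4 (D i) (y % D i) ∈ range (R + 1) := by
    intro y hy
    rw [mem_range]
    rw [hY, mem_filter] at hy
    exact Nat.lt_succ_of_le (sum_le_sum fun i _ => g4_le _ _ (hy.2 i))
  have hfib := card_eq_sum_card_fiberwise hmaps
  obtain ⟨r, hr, hrZ⟩ : ∃ r ∈ range (R + 1), Y.card ≤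
      (R + 1) * (Y.filter (fun y => ∑ i, g4 (D i) (y % D i) = r)).card := by
    refine exists_le_of_sum_le (nonempty_range_iff.2 (Nat.succ_ne_zero R)) ?_
    rw [sum_const, card_range, smul_eq_mul]
    rw [← mul_sum (range (R + 1)) (fun r => (Y.filter (fun y => ∑ i, g4 (D i) (y % D i) = r)).card)
      (R + 1), ← hfib]
  have hset : Y.filter (fun y => ∑ i, g4 (D i) (y % D i) = r) = setA4 D r := by
    ext y
    simp only [hY, setA4, mem_filter, mem_range]
    tauto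
  rw [hset] at hrZ
  refine ⟨setA4 D r, ?_, noAP_setA4 D hD hDc r, hrZ⟩
  intro y hy
  unfold setA4 at hy
  rw [mem_filter] at hy
  exact hy.1

end Vale.Agent.P057
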