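import Mathlib
import Vale.Agent.P057.Analysis

open Finset Real

namespace Vale.Agent.P057

/-- The parameter choice. -/
theorem param_step (n N : ℕ) (hn : 100000 ≤ n) (h1 : 27 * (n : ℝ) ^ 3 ≤ log N)
    (h2 : log N < 27 * ((n : ℝ) + 1) ^ 3) :
    ∃ A : Finset ℕ, A ⊆ range N ∧ NoAP 5 A ∧ (N : ℝ) * exp (-(261 / 20) * (n : ℝ)) ≤ A.card := by
  have hn' : (100000 : ℝ) ≤ n := by exact_mod_cast hn
  have hnpos : (0 : ℝ) < n := by linarith
  set m := 8 * n with hm
  set P := m.factorial with hP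
  have hm2 : 2 ≤ m := by omega
  have hP2 : 2 ≤ P := by
    have h3 : 2 ∣ P := Nat.dvd_factorial (by norm_num) hm2
    exact Nat.le_of_dvd (Nat.factorial_pos m) h3
  have hNpos : (0 : ℝ) < N := by
    by_contra hcon
    have h3 : (N : ℝ) = 0 := le_antisymm (not_lt.1 hcon) (Nat.cast_nonneg N)
    rw [h3, Real.log_zero] at h1
    have h4 : (0 : ℝ) < 27 * (n : ℝ) ^ 3 := by positivity
    linarith
  have hFm : Fw P m m ≤ N := by
    have h3 := Fm_bound n (by omega)
    have h4 : exp (27 * (n : ℝ) ^ 3) ≤ N := by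
      calc exp (27 * (n : ℝ) ^ 3) ≤ exp (log N) := Real.exp_le_exp.2 h1
        _ = N := Real.exp_log hNpos
    exact_mod_cast h3.trans h4
  obtain ⟨w, hwm, hw1, hw2⟩ := exists_step (Fw P m) (Fw_mono P m) m N hFm
    ⟨N, Fw_gt P m N (by omega) (by omega)⟩
  -- the moduli
  set D : Fin m → ℕ := fun i => 1 + P * (w + (i : ℕ)) with hD
  have hprodD : ∏ i, D i = Fw P m w := Fin.prod_univ_eq_prod_range (fun i => 1 + P * (w + i)) m
  set D₀ := 1 + P * w with hD₀
  have hDodd : ∀ i, D i % 2 = 1 := by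
    intro i
    have h3 : 2 ∣ P := Nat.dvd_factorial (by norm_num) hm2
    obtain ⟨c, hc⟩ := h3
    simp only [hD, hc]
    rw [mul_assoc]
    omega
  have hDc : Pairwise (Function.onFun Nat.Coprime D) := D_coprime m w
  have hDge : ∀ i, D₀ ≤ D i := by
    intro i
    simp only [hD, hD₀]
    have : P * w ≤ P * (w + (i : ℕ)) := Nat.mul_le_mul_left _ (by omega)
    omega
  have hD₀2m : 2 * m ≤ D₀ := by
    have : 2 * w ≤ P * w := Nat.mul_le_mul_right _ hP2
    simp only [hD₀]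
    omega
  have hDle : ∀ i, D i ≤ 2 * D₀ := by
    intro i
    simp only [hD, hD₀]
    have h3 : P * (w + (i : ℕ)) ≤ P * (2 * w) := Nat.mul_le_mul_left _ (by have := i.2; omega)
    have h4 : P * (2 * w) = 2 * (P * w) := by ring
    omega
  have hDpos : ∀ i, 0 < D i := fun i => by
    have := hDodd i
    omega
  have hD₀pow : ((D₀ : ℝ)) ^ m ≤ N := by
    have h3 : ∏ _i : Fin m, D₀ ≤ ∏ i, D i := prod_le_prod' fun i _ => hDge i
    rw [prod_const, card_univ, Fintype.card_fin, hprodD] at h3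
    exact_mod_cast h3.trans hw1
  -- the second-level moduli
  set X := exp ((9 / 4) * (n : ℝ) + 11) with hX
  have hX1 : 1000000 ≤ X := by
    have h3 : (1000000 : ℝ) ≤ exp 14 := by
      have h4 : exp 14 = exp 1 ^ 14 := by
        rw [← Real.exp_nat_mul]
        norm_num
      rw [h4]
      have h5 : (2.7 : ℝ) ≤ exp 1 := by
        have := Real.exp_one_gt_d9
        linarith
      have h6 : (2.7 : ℝ) ^ 14 ≤ exp 1 ^ 14 := pow_le_pow_left₀ (by norm_num) h5 14
      refine le_trans ?_ h6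
      norm_num
    exact h3.trans (Real.exp_le_exp.2 (by linarith))
  set x := ⌈X⌉₊ with hx
  have hXx : X ≤ x := Nat.le_ceil X
  have hx2 : (x : ℝ) ≤ 2 * X := by
    have := Nat.ceil_lt_add_one (show 0 ≤ X by linarith)
    linarith
  have hx6 : 1000000 ≤ x := by
    have : (1000000 : ℝ) ≤ x := hX1.trans hXx
    exact_mod_cast this
  have hlogx : 3 * ((3 * n : ℕ) : ℝ) ≤ 4 * log x := by
    have h3 : log X ≤ log x := Real.log_le_log (by linarith) hXx
    rw [hX, Real.log_exp] at h3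
    push_cast
    linarith
  obtain ⟨E, hEinj, hE⟩ := many_primes x (3 * n) hx6 hlogx
  have hEpos : ∀ j, 0 < E j := fun j => (hE j).1.pos
  have hEc : Pairwise (Function.onFun Nat.Coprime E) := by
    intro a b hab
    exact (Nat.coprime_primes (hE a).1 (hE b).1).2 fun h => hab (hEinj h)
  have hElt : ∀ j, X < E j := by
    intro j
    have h3 : (x : ℝ) < E j := by exact_mod_cast (hE j).2.1
    linarith
  have hQ : ∀ y, Qf D y < ∏ j, E j :=
    Q_lt n N D₀ (by omega) D E X (by simp only [hD₀]; omega) hDpos hDle hD₀pow h2 le_rfl hElt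
  obtain ⟨A, hA, hNo, hcount⟩ := count_bound D E hDodd hDc hEpos hEc hQ
    (fun i => hD₀2m.trans (hDge i))
  refine ⟨A, ?_, hNo, ?_⟩
  · intro y hy
    have h3 := hA hy
    rw [mem_range, hprodD] at h3
    rw [mem_range]
    omega
  -- the final inequality
  have hNlt : N < 2 * Fw P m w := by
    have h3 := Fw_tele P m w
    have h4 : 1 + P * (w + m) ≤ 2 * (1 + P * w) := by
      have h5 : P * (w + m) ≤ P * (2 * w) := Nat.mul_le_mul_left _ (by omega)
      have h6 : P * (2 * w) = 2 * (P * w) := by ring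
      omega
    have h7 : (1 + P * w) * Fw P m (w + 1) ≤ (1 + P * w) * (2 * Fw P m w) := by
      rw [← h3]
      calc Fw P m w * (1 + P * (w + m)) ≤ Fw P m w * (2 * (1 + P * w)) :=
            Nat.mul_le_mul_left _ h4
        _ = _ := by ring
    have h8 := Nat.le_of_mul_le_mul_left h7 (by positivity)
    omega
  have hNlt' : (N : ℝ) ≤ 2 * ((∏ i, D i : ℕ) : ℝ) := by
    rw [hprodD]
    exact_mod_cast hNlt.le
  have hRp : (((∑ j, (E j) ^ 2) + 1 : ℕ) : ℝ) ≤ 28 * n * (x : ℝ) ^ 2 := by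
    have h3 : ∑ j, (E j) ^ 2 ≤ ∑ _j : Fin (3 * n), (3 * x) ^ 2 :=
      sum_le_sum fun j _ => Nat.pow_le_pow_left (hE j).2.2 2
    rw [sum_const, card_univ, Fintype.card_fin, smul_eq_mul] at h3
    have h4 : (∑ j, (E j) ^ 2) + 1 ≤ 28 * n * x ^ 2 := by
      have h5 : 1 ≤ n * x ^ 2 := Nat.mul_pos (by omega) (pow_pos (by omega) 2)
      have h6 : 3 * n * (3 * x) ^ 2 = 27 * (n * x ^ 2) := by ring
      have h7 : 28 * n * x ^ 2 = 28 * (n * x ^ 2) := by ring
      omega
    exact_mod_cast h4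
  exact final_ineq n hn _ _ _ _ _ hNlt' hcount hRp (Nat.cast_nonneg _) hx2 (Nat.cast_nonneg _)

/-- Shifting a progression-free set by one, and passing to longer progressions. -/
lemma noAP_shift (k : ℕ) (hk : 5 ≤ k) (A : Finset ℕ) (hA : NoAP 5 A) :
    NoAP k (A.image (fun y => y + 1)) := by
  intro a d hd hall
  have h0 := hall 0 (by omega)
  rw [mem_image] at h0
  obtain ⟨b, _, hb⟩ := h0
  refine hA b d hd fun j hj => ?_
  have h1 := hall j (by omega)
  rw [mem_image] at h1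
  obtain ⟨c, hc, hc'⟩ := h1
  have : c = b + j * d := by
    simp only [zero_mul, add_zero] at hb
    omega
  rw [← this]
  exact hc

lemma le_r (k N : ℕ) (A : Finset ℕ) (hA : A ⊆ Icc 1 N) (hNo : NoAP k A) : A.card ≤ r k N := by
  unfold r
  refine le_csSup ⟨N, ?_⟩ ⟨A, hA, hNo, rfl⟩
  rintro c ⟨B, hB, _, rfl⟩
  simpa using card_le_card hB

/-- The lower bound, with the cube root of the logarithm in the exponent. -/
theorem main_bound :
    ∃ N₀ : ℕ, ∀ k : ℕ, 5 ≤ k → ∀ N : ℕ, N₀ ≤ N →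
      (N : ℝ) * exp (-(87 / 20) * (log N) ^ ((1 : ℝ) / 3)) ≤ r k N := by
  set Z : ℝ := exp (27 * (100000 : ℝ) ^ 3) with hZ
  refine ⟨⌈Z⌉₊, fun k hk N hN => ?_⟩
  have hZpos : 0 < Z := Real.exp_pos _
  have hNZ : Z ≤ N := (Nat.le_ceil Z).trans (by exact_mod_cast hN)
  have hNpos : (0 : ℝ) < N := lt_of_lt_of_le hZpos hNZ
  have hlog : 27 * (100000 : ℝ) ^ 3 ≤ log N := by
    have := Real.log_le_log hZpos hNZ
    rwa [hZ, Real.log_exp] at this
  have hlogpos : 0 ≤ log (N : ℝ) := le_trans (by positivity) hlog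
  set t := (log (N : ℝ)) ^ ((1 : ℝ) / 3) with ht
  have ht0 : 0 ≤ t := Real.rpow_nonneg hlogpos _
  have ht3 : t ^ 3 = log N := by
    rw [ht, ← Real.rpow_natCast, ← Real.rpow_mul hlogpos]
    norm_num
  have ht_big : 300000 ≤ t := by
    by_contra hcon
    push Not at hcon
    have h3 : t ^ 3 < (300000 : ℝ) ^ 3 := pow_lt_pow_left₀ hcon ht0 (by norm_num)
    rw [ht3] at h3
    norm_num at hlog h3
    linarith
  set n := ⌊t / 3⌋₊ with hn
  have hn1 : (n : ℝ) ≤ t / 3 := Nat.floor_le (by positivity)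
  have hn2 : t / 3 < (n : ℝ) + 1 := Nat.lt_floor_add_one _
  have hn3 : 100000 ≤ n := by
    apply Nat.le_floor
    push_cast
    linarith
  have hnn : (0 : ℝ) ≤ n := Nat.cast_nonneg n
  have h1 : 27 * (n : ℝ) ^ 3 ≤ log N := by
    rw [← ht3]
    have h3 : (3 * (n : ℝ)) ^ 3 ≤ t ^ 3 := pow_le_pow_left₀ (by positivity) (by linarith) 3
    nlinarith
  have h2 : log N < 27 * ((n : ℝ) + 1) ^ 3 := by
    rw [← ht3]
    have h3 : t ^ 3 < (3 * ((n : ℝ) + 1)) ^ 3 := pow_lt_pow_left₀ (by linarith) ht0 (by norm_num)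
    nlinarith
  obtain ⟨A, hA, hNo, hcard⟩ := param_step n N hn3 h1 h2
  have hsub : A.image (fun y => y + 1) ⊆ Icc 1 N := by
    intro y hy
    rw [mem_image] at hy
    obtain ⟨c, hc, rfl⟩ := hy
    have := hA hc
    rw [mem_range] at this
    rw [mem_Icc]
    omega
  have hcardimg : (A.image (fun y => y + 1)).card = A.card :=
    card_image_of_injective _ (fun a b h => by simpa using h)
  have hle := le_r k N _ hsub (noAP_shift k hk A hNo)
  rw [hcardimg] at hle
  have hexp : exp (-(87 / 20) * t) ≤ exp (-(261 / 20) * (n : ℝ)) :=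
    Real.exp_le_exp.2 (by linarith)
  calc (N : ℝ) * exp (-(87 / 20) * t) ≤ (N : ℝ) * exp (-(261 / 20) * (n : ℝ)) :=
        mul_le_mul_of_nonneg_left hexp hNpos.le
    _ ≤ A.card := hcard
    _ ≤ r k N := by exact_mod_cast hle

end Vale.Agent.P057
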