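import Mathlib
import Vale.Agent.P057.FourDigits
import Vale.Agent.P057.Step

open Finset Real

namespace Vale.Agent.P057

/-- The counting bound for the one-level construction, in real numbers. -/
theorem count_bound4 {m : ℕ} (D : Fin m → ℕ) (hD : ∀ i, D i % 2 = 1)
    (hDc : Pairwise (Function.onFun Nat.Coprime D)) (hm : ∀ i, 12 * m ≤ D i) :
    ∃ A : Finset ℕ, A ⊆ range (∏ i, D i) ∧ NoAP 4 A ∧
      (5 / 9 : ℝ) ^ m * ((∏ i, D i : ℕ) : ℝ) / 2 ≤
        (((∑ i, 2 * (D i) ^ 2) + 1 : ℕ) : ℝ) * (A.card : ℝ) := by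
  obtain ⟨A, hA, hNo, hle⟩ := exists_large4 D hD hDc
  refine ⟨A, hA, hNo, ?_⟩
  have hDpos : ∀ i, (0 : ℝ) < D i := fun i => by
    have := hD i
    have h : 0 < D i := by omega
    exact_mod_cast h
  have hDsix : ∀ i, (6 : ℝ) ≤ D i := fun i => by
    have h1 := hm i
    have h2 : 1 ≤ m := by
      have := i.2
      omega
    have h : 6 ≤ D i := by omega
    exact_mod_cast h
  have each : ∀ i, (5 / 9 : ℝ) * ((D i : ℝ) * (1 - 6 / (D i : ℝ))) ≤
      (((range (D i)).filter (InS4 (D i))).card : ℝ) := by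
    intro i
    have h := card_S4_ge (D i)
    have h' : 5 * (D i : ℝ) ≤ 9 * (((range (D i)).filter (InS4 (D i))).card : ℝ) + 27 := by
      exact_mod_cast h
    have h3 : (D i : ℝ) * (1 - 6 / (D i : ℝ)) = (D i : ℝ) - 6 := by
      field_simp [(hDpos i).ne']
    rw [h3]
    linarith
  have hprod : ∏ i, ((5 / 9 : ℝ) * ((D i : ℝ) * (1 - 6 / (D i : ℝ)))) ≤
      ∏ i, (((range (D i)).filter (InS4 (D i))).card : ℝ) := by
    refine prod_le_prod (fun i _ => ?_) (fun i _ => each i)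
    have h1 : 0 ≤ 1 - 6 / (D i : ℝ) := by
      rw [sub_nonneg, div_le_one (hDpos i)]
      exact hDsix i
    have := hDpos i
    positivity
  have hwei := weierstrass (univ : Finset (Fin m)) (fun i => 6 / (D i : ℝ))
    (fun i _ => (div_pos (by norm_num) (hDpos i)).le)
    (fun i _ => by rw [div_le_one (hDpos i)]; exact hDsix i)
  have hsum : ∑ i, 6 / (D i : ℝ) ≤ 1 / 2 := by
    by_cases hm0 : m = 0
    · subst hm0
      simp
    · have hmpos : (0 : ℝ) < m := by
        have : 0 < m := Nat.pos_of_ne_zero hm0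
        exact_mod_cast this
      have h1 : ∀ i ∈ (univ : Finset (Fin m)), 6 / (D i : ℝ) ≤ 6 / (12 * (m : ℝ)) := by
        intro i _
        apply div_le_div_of_nonneg_left (by norm_num) (by positivity)
        exact_mod_cast hm i
      have h2 := sum_le_card_nsmul _ _ _ h1
      rw [card_univ, Fintype.card_fin, nsmul_eq_mul] at h2
      have h3 : (m : ℝ) * (6 / (12 * (m : ℝ))) = 1 / 2 := by
        field_simp
        norm_num
      linarith
  have hprodD : (0 : ℝ) ≤ ∏ i, (D i : ℝ) := prod_nonneg fun i _ => (hDpos i).le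
  have hmain : ∏ i, ((5 / 9 : ℝ) * ((D i : ℝ) * (1 - 6 / (D i : ℝ)))) =
      (5 / 9 : ℝ) ^ m * ((∏ i, (D i : ℝ)) * ∏ i, (1 - 6 / (D i : ℝ))) := by
    rw [prod_mul_distrib, prod_mul_distrib, prod_const, card_univ, Fintype.card_fin]
  have hle' : ((∏ i, ((range (D i)).filter (InS4 (D i))).card : ℕ) : ℝ) ≤
      (((∑ i, 2 * (D i) ^ 2) + 1 : ℕ) : ℝ) * (A.card : ℝ) := by
    exact_mod_cast hle
  refine le_trans ?_ hle'
  push_cast
  calc (5 / 9 : ℝ) ^ m * (∏ i, (D i : ℝ)) / 2
      = (5 / 9 : ℝ) ^ m * ((∏ i, (D i : ℝ)) * (1 / 2)) := by ring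
    _ ≤ (5 / 9 : ℝ) ^ m * ((∏ i, (D i : ℝ)) * ∏ i, (1 - 6 / (D i : ℝ))) := by
        apply mul_le_mul_of_nonneg_left _ (by positivity)
        apply mul_le_mul_of_nonneg_left _ hprodD
        linarith
    _ = _ := hmain.symm
    _ ≤ _ := hprod

/-- A version of the elementary estimate behind the prime count, with `K ^ 4 ≤ X`. -/
lemma primes_numeric4 {X K : ℝ} (hX : 1000000 ≤ X) (hK0 : 0 ≤ K) (hK : K ^ 4 ≤ X) :
    log (3 * X + 1) + 2 * √(3 * X) * log (3 * X) + K * log (3 * X) < X * log 2 := by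
  set z := √(√(3 * X)) with hz
  have hX3 : 0 < 3 * X := by linarith
  have hs : √(3 * X) = z ^ 2 := by
    rw [hz, Real.sq_sqrt (Real.sqrt_nonneg _)]
  have h4 : z ^ 4 = 3 * X := by
    have : z ^ 4 = (z ^ 2) ^ 2 := by ring
    rw [this, ← hs, Real.sq_sqrt hX3.le]
  have hz0 : 0 ≤ z := Real.sqrt_nonneg _
  have hz40 : 40 ≤ z := by
    by_contra hlt
    push Not at hlt
    have : z ^ 4 < 40 ^ 4 := by
      exact pow_lt_pow_left₀ hlt hz0 (by norm_num)
    rw [h4] at this
    norm_num at this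
    linarith
  have hlog3 : log (3 * X) ≤ 4 * z := by
    rw [← h4, Real.log_pow]
    have := Real.log_le_sub_one_of_pos (show 0 < z by linarith)
    push_cast
    linarith
  have hlogpos : 0 ≤ log (3 * X) := Real.log_nonneg (by linarith)
  have hlog31 : log (3 * X + 1) ≤ log (3 * X) + 1 := by
    have h1 : log (3 * X + 1) ≤ log (2 * (3 * X)) :=
      Real.log_le_log (by linarith) (by linarith)
    rw [Real.log_mul (by norm_num) hX3.ne'] at h1
    have := Real.log_two_lt_d9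
    linarith
  have hK' : K ≤ z := by
    by_contra hlt
    push Not at hlt
    have : z ^ 4 < K ^ 4 := pow_lt_pow_left₀ hlt hz0 (by norm_num)
    rw [h4] at this
    linarith
  have hlog2 : (69 : ℝ) / 100 < log 2 := by
    have := Real.log_two_gt_d9
    linarith
  have hXpos : 0 < X := by linarith
  have hmain : X * log 2 ≥ X * (69 / 100) := by
    exact mul_le_mul_of_nonneg_left hlog2.le hXpos.le
  have hXz : X = z ^ 4 / 3 := by linarith
  have hterm2 : 2 * √(3 * X) * log (3 * X) ≤ 2 * z ^ 2 * (4 * z) := by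
    rw [hs]
    exact mul_le_mul_of_nonneg_left hlog3 (by positivity)
  have hterm3 : K * log (3 * X) ≤ z * (4 * z) :=
    mul_le_mul hK' hlog3 hlogpos hz0
  have hz3 : z ^ 4 ≥ 40 * z ^ 3 := by
    have : z ^ 4 = z * z ^ 3 := by ring
    rw [this]
    exact mul_le_mul_of_nonneg_right hz40 (by positivity)
  have hz2 : z ^ 3 ≥ 40 * z ^ 2 := by
    have : z ^ 3 = z * z ^ 2 := by ring
    rw [this]
    exact mul_le_mul_of_nonneg_right hz40 (by positivity)
  have hz1 : z ^ 2 ≥ 40 * z := by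
    have : z ^ 2 = z * z := by ring
    rw [this]
    exact mul_le_mul_of_nonneg_right hz40 (by positivity)
  rw [hXz] at hmain
  nlinarith

/-- Many primes between `x` and `3 x`, from Chebyshev bounds, when `k ^ 4 ≤ x`. -/
theorem many_primes4 (x k : ℕ) (hx : 1000000 ≤ x) (hk : k ^ 4 ≤ x) :
    ∃ E : Fin k → ℕ, Function.Injective E ∧ ∀ j, (E j).Prime ∧ x < E j ∧ E j ≤ 3 * x := by
  classical
  set S := (Ioc x (3 * x)).filter Nat.Prime with hS
  have hcard : k ≤ S.card := by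
    by_contra hlt
    push Not at hlt
    have hX : (1000000 : ℝ) ≤ (x : ℝ) := by exact_mod_cast hx
    have hk' : (k : ℝ) ^ 4 ≤ (x : ℝ) := by exact_mod_cast hk
    have hnum := primes_numeric4 hX (Nat.cast_nonneg k) hk'
    have hsplit : Chebyshev.theta ((3 * x : ℕ) : ℝ) =
        Chebyshev.theta (x : ℝ) + ∑ p ∈ S, log p := by
      rw [Chebyshev.theta_eq_sum_primesLE_log, Chebyshev.theta_eq_sum_primesLE_log]
      have hdisj : Disjoint (Nat.primesLE x) S := by
        rw [disjoint_left]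
        intro p hp hp'
        rw [Nat.mem_primesLE] at hp
        rw [hS, mem_filter, mem_Ioc] at hp'
        omega
      rw [← sum_union hdisj]
      refine sum_congr ?_ fun _ _ => rfl
      ext p
      rw [mem_union, Nat.mem_primesLE, Nat.mem_primesLE, hS, mem_filter, mem_Ioc]
      constructor
      · rintro ⟨h1, h2⟩
        by_cases h3 : p ≤ x
        · exact Or.inl ⟨h3, h2⟩
        · exact Or.inr ⟨⟨by omega, h1⟩, h2⟩
      · rintro (⟨h1, h2⟩ | ⟨⟨_, h1⟩, h2⟩)
        · exact ⟨by omega, h2⟩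
        · exact ⟨h1, h2⟩
    have hupper : ∑ p ∈ S, log (p : ℝ) ≤ S.card * log (3 * (x : ℝ)) := by
      have : ∀ p ∈ S, log (p : ℝ) ≤ log (3 * (x : ℝ)) := by
        intro p hp
        rw [hS, mem_filter, mem_Ioc] at hp
        have h1 : (0 : ℝ) < p := by exact_mod_cast hp.2.pos
        have h2 : (p : ℝ) ≤ 3 * x := by exact_mod_cast hp.1.2
        exact Real.log_le_log h1 h2
      have h2 := sum_le_card_nsmul S _ _ this
      simpa using h2
    have hlower := Chebyshev.theta_ge (3 * x)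
    have hthetax := Chebyshev.theta_le_log4_mul_x (x := (x : ℝ)) (by positivity)
    rw [hsplit] at hlower
    push_cast at hlower
    have hlog4 : log (4 : ℝ) = 2 * log 2 := by
      rw [show (4 : ℝ) = 2 ^ 2 by norm_num, Real.log_pow]
      norm_num
    rw [hlog4] at hthetax
    have hlogpos : 0 ≤ log (3 * (x : ℝ)) := Real.log_nonneg (by linarith)
    have hcardk : (S.card : ℝ) ≤ k := by exact_mod_cast hlt.le
    have h5 : (S.card : ℝ) * log (3 * (x : ℝ)) ≤ k * log (3 * (x : ℝ)) :=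
      mul_le_mul_of_nonneg_right hcardk hlogpos
    nlinarith
  obtain ⟨T, hTS, hT⟩ := exists_subset_card_eq hcard
  refine ⟨fun j => T.orderEmbOfFin hT j, (T.orderEmbOfFin hT).injective, fun j => ?_⟩
  have h1 := hTS (T.orderEmbOfFin_mem hT j)
  rw [hS, mem_filter, mem_Ioc] at h1
  exact ⟨h1.2, h1.1.1, h1.1.2⟩

/-- The sequence of primes. -/
noncomputable def qp (j : ℕ) : ℕ := Nat.nth Nat.Prime j

lemma qp_prime (j : ℕ) : (qp j).Prime := Nat.prime_nth_prime j

lemma qp_strictMono : StrictMono qp := Nat.nth_strictMono Nat.infinite_setOfPred_prime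

lemma qp_add_le (w m : ℕ) (h6 : 1000000 ≤ qp w) (hm : m ^ 4 ≤ qp w) :
    qp (w + m) ≤ 3 * qp w := by
  obtain ⟨E, hEinj, hE⟩ := many_primes4 (qp w) m h6 hm
  have key : ∀ S : Finset ℕ, (∀ y, y ∈ S ↔ y < 3 * qp w + 1 ∧ y.Prime) → w + m < S.card := by
    intro S hS
    have hsub : (range (w + 1)).image qp ∪ univ.image E ⊆ S := by
      intro y hy
      rw [mem_union, mem_image, mem_image] at hy
      rw [hS]
      rcases hy with ⟨j, hj, rfl⟩ | ⟨j, _, rfl⟩
      · rw [mem_range] at hj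
        have h1 : qp j ≤ qp w := qp_strictMono.monotone (by omega)
        exact ⟨by omega, qp_prime j⟩
      · have := hE j
        exact ⟨by omega, (hE j).1⟩
    have hdisj : Disjoint ((range (w + 1)).image qp) (univ.image E) := by
      rw [disjoint_left]
      intro y hy hy'
      rw [mem_image] at hy hy'
      obtain ⟨j, hj, rfl⟩ := hy
      obtain ⟨l, _, hl⟩ := hy'
      rw [mem_range] at hj
      have h1 : qp j ≤ qp w := qp_strictMono.monotone (by omega)
      have := hE l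
      omega
    have h2 := card_le_card hsub
    rw [card_union_of_disjoint hdisj, card_image_of_injective _ qp_strictMono.injective,
      card_image_of_injective _ hEinj, card_range, card_univ, Fintype.card_fin] at h2
    omega
  have hcount : w + m < Nat.count Nat.Prime (3 * qp w + 1) := by
    rw [Nat.count_eq_card_filter_range]
    exact key _ (fun y => by rw [mem_filter, mem_range])
  have h3 : qp (w + m) < 3 * qp w + 1 := Nat.nth_lt_of_lt_count hcount
  omega

/-- The product of `m` consecutive primes. -/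
noncomputable def fq (m w : ℕ) : ℕ := ∏ i ∈ range m, qp (w + i)

lemma fq_mono (m : ℕ) : Monotone (fq m) := by
  intro a b hab
  unfold fq
  exact prod_le_prod' fun i _ => qp_strictMono.monotone (by omega)

lemma fq_tele (m w : ℕ) : fq m w * qp (w + m) = qp w * fq m (w + 1) := by
  unfold fq
  rw [← prod_range_succ (fun i => qp (w + i)) m, prod_range_succ', mul_comm]
  congr 1
  refine prod_congr rfl fun i _ => ?_
  congr 1
  ring

lemma fq_gt (m w : ℕ) (hm : 0 < m) : w < fq m w := by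
  obtain ⟨m', rfl⟩ : ∃ m', m = m' + 1 := ⟨m - 1, by omega⟩
  unfold fq
  rw [prod_range_succ']
  have h1 : 0 < ∏ i ∈ range m', qp (w + (i + 1)) :=
    prod_pos fun i _ => (qp_prime _).pos
  have h2 : w + 2 ≤ qp (w + 0) := by
    simpa [qp] using Nat.add_two_le_nth_prime w
  calc w < qp (w + 0) := by omega
    _ ≤ _ := Nat.le_mul_of_pos_left _ h1

lemma seed_numeric (n : ℕ) (hn : 1000000 ≤ n) : (6 * (24 * (n : ℝ)) ^ 4) ≤ exp (7 * n) := by
  have hn' : (1000000 : ℝ) ≤ n := by exact_mod_cast hn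
  set a : ℝ := (7 / 5) * n with ha
  have ha0 : 0 ≤ a := by rw [ha]; positivity
  have h1 : a ≤ exp a := by
    have := Real.add_one_le_exp a
    linarith
  have h2 : a ^ 5 ≤ exp a ^ 5 := pow_le_pow_left₀ ha0 h1 5
  have h3 : exp a ^ 5 = exp (7 * n) := by
    rw [← Real.exp_nat_mul, ha]
    congr 1
    push_cast
    ring
  rw [← h3]
  refine le_trans ?_ h2
  rw [ha]
  have h4 : (0 : ℝ) ≤ (n : ℝ) ^ 4 := by positivity
  have h5 : (6 * (24 * (n : ℝ)) ^ 4) = 1990656 * (n : ℝ) ^ 4 := by ring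
  have h6 : ((7 / 5) * (n : ℝ)) ^ 5 = (16807 / 3125) * (n : ℝ) * (n : ℝ) ^ 4 := by ring
  rw [h5, h6]
  apply mul_le_mul_of_nonneg_right _ h4
  linarith

lemma base_le_exp4 : (9 / 5 : ℝ) ^ 24 ≤ exp (522 / 37) := by
  have h1 : (9 / 5 : ℝ) ^ 148 ≤ exp 87 := by
    have h2 : exp 87 = exp 1 ^ 87 := by
      rw [← Real.exp_nat_mul]
      norm_num
    rw [h2]
    have h3 : (2.7182 : ℝ) ≤ exp 1 := by
      have := Real.exp_one_gt_d9
      linarith
    have h4 : (2.7182 : ℝ) ^ 87 ≤ exp 1 ^ 87 := pow_le_pow_left₀ (by norm_num) h3 87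
    refine le_trans ?_ h4
    norm_num
  have h5 : ((9 / 5 : ℝ) ^ 148) ^ 6 ≤ exp 87 ^ 6 := pow_le_pow_left₀ (by positivity) h1 6
  have h6 : exp 87 ^ 6 = exp (522 / 37) ^ 37 := by
    rw [← Real.exp_nat_mul, ← Real.exp_nat_mul]
    norm_num
  have h7 : ((9 / 5 : ℝ) ^ 148) ^ 6 = ((9 / 5 : ℝ) ^ 24) ^ 37 := by
    rw [← pow_mul, ← pow_mul]
  rw [h6, h7] at h5
  exact (pow_le_pow_iff_left₀ (by positivity) (Real.exp_pos _).le (by norm_num)).1 h5

lemma small_le_exp4 (n : ℕ) (hn : 1000000 ≤ n) : 2736 * (n : ℝ) * exp 29 ≤ exp ((n : ℝ) / 100) := by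
  have hn' : (1000000 : ℝ) ≤ n := by exact_mod_cast hn
  have h1 : exp 29 ≤ exp ((n : ℝ) / 200) := Real.exp_le_exp.2 (by linarith)
  set a : ℝ := (n : ℝ) / 600 with ha
  have ha0 : 0 ≤ a := by rw [ha]; positivity
  have ha1 : 1000 ≤ a := by rw [ha]; linarith
  have h2 : a ≤ exp a := by
    have := Real.add_one_le_exp a
    linarith
  have h3 : a ^ 3 ≤ exp a ^ 3 := pow_le_pow_left₀ ha0 h2 3
  have h4 : exp a ^ 3 = exp ((n : ℝ) / 200) := by
    rw [← Real.exp_nat_mul, ha]
    congr 1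
    push_cast
    ring
  rw [h4] at h3
  have h5 : 2736 * (n : ℝ) ≤ a ^ 3 := by
    have h6 : (n : ℝ) = 600 * a := by rw [ha]; ring
    rw [h6]
    have h7 : a ^ 2 ≥ 1000 * 1000 := by nlinarith
    nlinarith
  have h8 : exp ((n : ℝ) / 100) = exp ((n : ℝ) / 200) * exp ((n : ℝ) / 200) := by
    rw [← Real.exp_add]
    congr 1
    ring
  rw [h8]
  exact mul_le_mul (h5.trans h3) h1 (Real.exp_pos _).le (Real.exp_pos _).le

/-- The final numerical comparison. -/
lemma final_ineq4 (n : ℕ) (hn : 1000000 ≤ n) (Nr Pp Rp Ac X2 : ℝ) (hNlt : Nr ≤ 3 * Pp)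
    (hcount : (5 / 9 : ℝ) ^ (24 * n) * Pp / 2 ≤ Rp * Ac)
    (hRp : Rp ≤ 19 * (24 * n) * X2) (hX2 : X2 ≤ exp ((169 / 12) * (n : ℝ) + 29))
    (hAc : 0 ≤ Ac) : Nr * exp (-(2821 / 100) * (n : ℝ)) ≤ Ac := by
  have hnpos : (0 : ℝ) ≤ n := Nat.cast_nonneg n
  set G : ℝ := (9 / 5 : ℝ) ^ (24 * n) with hG
  have hGpos : 0 < G := by positivity
  have h1 : Pp ≤ 2 * G * (Rp * Ac) := by
    have h2 : (5 / 9 : ℝ) ^ (24 * n) * Pp / 2 = Pp / (2 * G) := by
      rw [hG]
      have h3 : (5 / 9 : ℝ) = (9 / 5 : ℝ)⁻¹ := by norm_num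
      rw [h3, inv_pow]
      field_simp
    rw [h2, div_le_iff₀ (by positivity)] at hcount
    linarith
  have h5 : Rp * Ac ≤ (19 * (24 * n) * exp ((169 / 12) * (n : ℝ) + 29)) * Ac := by
    apply mul_le_mul_of_nonneg_right _ hAc
    exact hRp.trans (mul_le_mul_of_nonneg_left hX2 (by positivity))
  have hbase : G ≤ exp ((522 / 37) * (n : ℝ)) := by
    have h6 := pow_le_pow_left₀ (by positivity) base_le_exp4 n
    rw [← pow_mul, ← Real.exp_nat_mul] at h6
    have h7 : (n : ℝ) * (522 / 37) = (522 / 37) * (n : ℝ) := by ring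
    rwa [h7] at h6
  have hsmall := small_le_exp4 n hn
  have hmain : Nr ≤ exp ((2821 / 100) * (n : ℝ)) * Ac := by
    have h9 : exp ((169 / 12) * (n : ℝ) + 29) = exp ((169 / 12) * (n : ℝ)) * exp 29 :=
      Real.exp_add _ _
    have h10 : exp ((522 / 37) * (n : ℝ)) * exp ((169 / 12) * (n : ℝ)) * exp ((n : ℝ) / 100) ≤
        exp ((2821 / 100) * (n : ℝ)) := by
      rw [← Real.exp_add, ← Real.exp_add]
      apply Real.exp_le_exp.2
      nlinarith
    have h12 : Nr ≤ (2736 * (n : ℝ) * exp 29) * (G * exp ((169 / 12) * (n : ℝ))) * Ac := by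
      have h13 : Nr ≤ 3 * (2 * G * (Rp * Ac)) := hNlt.trans (by linarith)
      have h14 : 3 * (2 * G * (Rp * Ac)) ≤
          3 * (2 * G * ((19 * (24 * n) * exp ((169 / 12) * (n : ℝ) + 29)) * Ac)) := by
        gcongr
      refine h13.trans (h14.trans (le_of_eq ?_))
      rw [h9]
      ring
    refine h12.trans ?_
    apply mul_le_mul_of_nonneg_right _ hAc
    calc (2736 * (n : ℝ) * exp 29) * (G * exp ((169 / 12) * (n : ℝ)))
        ≤ exp ((n : ℝ) / 100) * (exp ((522 / 37) * (n : ℝ)) * exp ((169 / 12) * (n : ℝ))) := by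
          apply mul_le_mul hsmall _ (by positivity) (Real.exp_pos _).le
          exact mul_le_mul_of_nonneg_right hbase (Real.exp_pos _).le
      _ = exp ((522 / 37) * (n : ℝ)) * exp ((169 / 12) * (n : ℝ)) * exp ((n : ℝ) / 100) := by ring
      _ ≤ _ := h10
  have h15 : exp (-(2821 / 100) * (n : ℝ)) * exp ((2821 / 100) * (n : ℝ)) = 1 := by
    rw [← Real.exp_add]
    simp
  calc Nr * exp (-(2821 / 100) * (n : ℝ))
      ≤ (exp ((2821 / 100) * (n : ℝ)) * Ac) * exp (-(2821 / 100) * (n : ℝ)) :=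
        mul_le_mul_of_nonneg_right hmain (Real.exp_pos _).le
    _ = Ac * (exp (-(2821 / 100) * (n : ℝ)) * exp ((2821 / 100) * (n : ℝ))) := by ring
    _ = Ac := by rw [h15, mul_one]

/-- The parameter choice. -/
theorem param_step4 (n N : ℕ) (hn : 1000000 ≤ n) (h1 : 169 * (n : ℝ) ^ 2 ≤ log N)
    (h2 : log N < 169 * ((n : ℝ) + 1) ^ 2) :
    ∃ A : Finset ℕ, A ⊆ range N ∧ NoAP 4 A ∧ (N : ℝ) * exp (-(2821 / 100) * (n : ℝ)) ≤ A.card := by
  have hn' : (1000000 : ℝ) ≤ n := by exact_mod_cast hn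
  have hnpos : (0 : ℝ) < n := by linarith
  set m := 24 * n with hm
  have hmR : (m : ℝ) = 24 * (n : ℝ) := by rw [hm]; push_cast; ring
  have hm24 : 24000000 ≤ m := by omega
  have hNpos : (0 : ℝ) < N := by
    by_contra hcon
    have h3 : (N : ℝ) = 0 := le_antisymm (not_lt.1 hcon) (Nat.cast_nonneg N)
    rw [h3, Real.log_zero] at h1
    have h4 : (0 : ℝ) < 169 * (n : ℝ) ^ 2 := by positivity
    linarith
  -- the starting prime
  obtain ⟨p₀, hp₀, hp₁, hp₂⟩ := Nat.exists_prime_lt_and_le_two_mul (m ^ 4) (by positivity)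
  have hm4big : 1000000 ≤ m ^ 4 := by
    calc 1000000 ≤ m := by omega
      _ ≤ m ^ 4 := Nat.le_self_pow (by norm_num) m
  set w₀ := Nat.count Nat.Prime p₀ with hw₀
  have hqw₀ : qp w₀ = p₀ := Nat.nth_count hp₀
  have hseed : fq m w₀ ≤ N := by
    have h3 : qp (w₀ + m) ≤ 3 * qp w₀ :=
      qp_add_le w₀ m (by omega) (by omega)
    have h4 : fq m w₀ ≤ (6 * m ^ 4) ^ m := by
      unfold fq
      calc ∏ i ∈ range m, qp (w₀ + i) ≤ ∏ _i ∈ range m, 6 * m ^ 4 := by
            refine prod_le_prod' fun i hi => ?_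
            rw [mem_range] at hi
            have h5 : qp (w₀ + i) ≤ qp (w₀ + m) := qp_strictMono.monotone (by omega)
            omega
        _ = (6 * m ^ 4) ^ m := by rw [prod_const, card_range]
    have h5 : ((fq m w₀ : ℕ) : ℝ) ≤ (6 * (m : ℝ) ^ 4) ^ m := by exact_mod_cast h4
    have h6 : 6 * (m : ℝ) ^ 4 ≤ exp (7 * n) := by
      rw [hmR]
      exact seed_numeric n hn
    have h7 : (6 * (m : ℝ) ^ 4) ^ m ≤ exp (7 * n) ^ m := pow_le_pow_left₀ (by positivity) h6 m
    have h8 : exp (7 * (n : ℝ)) ^ m = exp (168 * (n : ℝ) ^ 2) := by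
      rw [← Real.exp_nat_mul, hmR]
      congr 1
      ring
    have h9 : exp (168 * (n : ℝ) ^ 2) ≤ exp (log N) := by
      apply Real.exp_le_exp.2
      nlinarith
    rw [Real.exp_log hNpos] at h9
    have h10 : ((fq m w₀ : ℕ) : ℝ) ≤ N := by
      calc ((fq m w₀ : ℕ) : ℝ) ≤ _ := h5
        _ ≤ _ := h7
        _ = _ := h8
        _ ≤ _ := h9
    exact_mod_cast h10
  obtain ⟨w, hww, hw1, hw2⟩ := exists_step (fq m) (fq_mono m) w₀ N hseed
    ⟨N, fq_gt m N (by omega)⟩
  set x := qp w with hx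
  have hxp : p₀ ≤ x := by
    rw [← hqw₀]
    exact qp_strictMono.monotone hww
  have hx6 : 1000000 ≤ x := by omega
  have hxm : m ^ 4 ≤ x := by omega
  have hnext : qp (w + m) ≤ 3 * x := qp_add_le w m hx6 hxm
  have hm12 : 12 * m ≤ x := by
    have h3 : 12 * m ≤ m ^ 4 := by
      have h4 : m ^ 4 = m * m ^ 3 := by ring
      rw [h4, mul_comm]
      apply Nat.mul_le_mul_left
      calc 12 ≤ m := by omega
        _ ≤ m ^ 3 := Nat.le_self_pow (by norm_num) m
    omega
  -- the moduli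
  set D : Fin m → ℕ := fun i => qp (w + (i : ℕ)) with hD
  have hprodD : ∏ i, D i = fq m w := Fin.prod_univ_eq_prod_range (fun i => qp (w + i)) m
  have hDge : ∀ i, x ≤ D i := fun i => qp_strictMono.monotone (by omega)
  have hDle : ∀ i, D i ≤ 3 * x := fun i => by
    have h3 : D i ≤ qp (w + m) := qp_strictMono.monotone (by have := i.2; omega)
    omega
  have hDodd : ∀ i, D i % 2 = 1 := by
    intro i
    rcases (qp_prime (w + (i : ℕ))).eq_two_or_odd with h | h
    · have := hDge i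
      simp only [hD] at this
      omega
    · exact h
  have hDc : Pairwise (Function.onFun Nat.Coprime D) := by
    intro i j hij
    apply (Nat.coprime_primes (qp_prime _) (qp_prime _)).2
    intro h
    have h3 := qp_strictMono.injective h
    exact hij (Fin.ext (by omega))
  have hxpow : ((x : ℝ)) ^ m ≤ N := by
    have h3 : ∏ _i : Fin m, x ≤ ∏ i, D i := prod_le_prod' fun i _ => hDge i
    rw [prod_const, card_univ, Fintype.card_fin, hprodD] at h3
    exact_mod_cast h3.trans hw1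
  obtain ⟨A, hA, hNo, hcount⟩ := count_bound4 D hDodd hDc (fun i => hm12.trans (hDge i))
  refine ⟨A, ?_, hNo, ?_⟩
  · intro y hy
    have h3 := hA hy
    rw [mem_range, hprodD] at h3
    rw [mem_range]
    omega
  -- the final inequality
  have hNlt : N ≤ 3 * fq m w := by
    have h3 := fq_tele m w
    have hpos : 0 < qp w := (qp_prime w).pos
    have h7 : qp w * fq m (w + 1) ≤ qp w * (3 * fq m w) := by
      rw [← h3]
      calc fq m w * qp (w + m) ≤ fq m w * (3 * x) := Nat.mul_le_mul_left _ hnext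
        _ = _ := by rw [hx]; ring
    have h8 := Nat.le_of_mul_le_mul_left h7 hpos
    omega
  have hNlt' : (N : ℝ) ≤ 3 * ((∏ i, D i : ℕ) : ℝ) := by
    rw [hprodD]
    exact_mod_cast hNlt
  have hRp : (((∑ i, 2 * (D i) ^ 2) + 1 : ℕ) : ℝ) ≤ 19 * (24 * n) * (x : ℝ) ^ 2 := by
    have h3 : ∑ i, 2 * (D i) ^ 2 ≤ ∑ _i : Fin m, 2 * (3 * x) ^ 2 :=
      sum_le_sum fun i _ => Nat.mul_le_mul_left _ (Nat.pow_le_pow_left (hDle i) 2)
    rw [sum_const, card_univ, Fintype.card_fin, smul_eq_mul] at h3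
    have h4 : (∑ i, 2 * (D i) ^ 2) + 1 ≤ 19 * m * x ^ 2 := by
      have h5 : 1 ≤ m * x ^ 2 := Nat.mul_pos (by omega) (pow_pos (by omega) 2)
      have h6 : m * (2 * (3 * x) ^ 2) = 18 * (m * x ^ 2) := by ring
      have h7 : 19 * m * x ^ 2 = 19 * (m * x ^ 2) := by ring
      omega
    have h8 : (((∑ i, 2 * (D i) ^ 2) + 1 : ℕ) : ℝ) ≤ ((19 * m * x ^ 2 : ℕ) : ℝ) := by
      exact_mod_cast h4
    refine h8.trans (le_of_eq ?_)
    push_cast
    rw [hmR]
  have hX2 : (x : ℝ) ^ 2 ≤ exp ((169 / 12) * (n : ℝ) + 29) := by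
    have hxpos : (0 : ℝ) < x := by
      have : 0 < x := by omega
      exact_mod_cast this
    set L := log (x : ℝ) with hL
    have hlogle : (24 * (n : ℝ)) * L ≤ log N := by
      have h3 := Real.log_le_log (by positivity) hxpow
      rw [Real.log_pow, hmR] at h3
      exact h3
    have hL2 : 2 * L ≤ (169 / 12) * (n : ℝ) + 29 := by
      by_contra hcon
      push Not at hcon
      have h3 : (12 * (n : ℝ)) * ((169 / 12) * (n : ℝ) + 29) ≤ (12 * (n : ℝ)) * (2 * L) :=
        mul_le_mul_of_nonneg_left hcon.le (by positivity)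
      nlinarith
    have h4 : (x : ℝ) ^ 2 = exp (2 * L) := by
      rw [hL, two_mul, Real.exp_add, Real.exp_log hxpos]
      ring
    rw [h4]
    exact Real.exp_le_exp.2 hL2
  exact final_ineq4 n hn _ _ _ _ _ hNlt' hcount hRp hX2 (Nat.cast_nonneg _)

/-- Shifting a progression-free set by one. -/
lemma noAP_shift4 (A : Finset ℕ) (hA : NoAP 4 A) :
    NoAP 4 (A.image (fun y => y + 1)) := by
  intro a d hd hall
  have h0 := hall 0 (by omega)
  rw [mem_image] at h0
  obtain ⟨b, _, hb⟩ := h0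
  refine hA b d hd fun j hj => ?_
  have h1 := hall j (by omega)
  rw [mem_image] at h1
  obtain ⟨c, hc, hc'⟩ := h1
  have : c = b + j * d := by
    simp only [zero_mul, add_zero] at hb
    omega
  rw [← this]
  exact hc

/-- The lower bound for `r_4`, with a constant below the value `2.22…` coming from the best known
construction for `r_3`. -/
theorem main_bound4 :
    ∃ N₀ : ℕ, ∀ N : ℕ, N₀ ≤ N →
      (N : ℝ) * exp (-(217 / 100) * √(log N)) ≤ r 4 N := by
  set Z : ℝ := exp (169 * (1000000 : ℝ) ^ 2) with hZ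
  refine ⟨⌈Z⌉₊, fun N hN => ?_⟩
  have hZpos : 0 < Z := Real.exp_pos _
  have hNZ : Z ≤ N := (Nat.le_ceil Z).trans (by exact_mod_cast hN)
  have hNpos : (0 : ℝ) < N := lt_of_lt_of_le hZpos hNZ
  have hlog : 169 * (1000000 : ℝ) ^ 2 ≤ log N := by
    have := Real.log_le_log hZpos hNZ
    rwa [hZ, Real.log_exp] at this
  have hlogpos : 0 ≤ log (N : ℝ) := le_trans (by positivity) hlog
  set t := √(log (N : ℝ)) with ht
  have ht0 : 0 ≤ t := Real.sqrt_nonneg _
  have ht2 : t ^ 2 = log N := Real.sq_sqrt hlogpos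
  have ht_big : 13000000 ≤ t := by
    by_contra hcon
    push Not at hcon
    have h3 : t ^ 2 < (13000000 : ℝ) ^ 2 := pow_lt_pow_left₀ hcon ht0 (by norm_num)
    rw [ht2] at h3
    norm_num at hlog h3
    linarith
  set n := ⌊t / 13⌋₊ with hn
  have hn1 : (n : ℝ) ≤ t / 13 := Nat.floor_le (by positivity)
  have hn2 : t / 13 < (n : ℝ) + 1 := Nat.lt_floor_add_one _
  have hn3 : 1000000 ≤ n := by
    apply Nat.le_floor
    push_cast
    linarith
  have hnn : (0 : ℝ) ≤ n := Nat.cast_nonneg n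
  have h1 : 169 * (n : ℝ) ^ 2 ≤ log N := by
    rw [← ht2]
    have h3 : (13 * (n : ℝ)) ^ 2 ≤ t ^ 2 := pow_le_pow_left₀ (by positivity) (by linarith) 2
    nlinarith
  have h2 : log N < 169 * ((n : ℝ) + 1) ^ 2 := by
    rw [← ht2]
    have h3 : t ^ 2 < (13 * ((n : ℝ) + 1)) ^ 2 := pow_lt_pow_left₀ (by linarith) ht0 (by norm_num)
    nlinarith
  obtain ⟨A, hA, hNo, hcard⟩ := param_step4 n N hn3 h1 h2
  have hsub : A.image (fun y => y + 1) ⊆ Icc 1 N := by
    intro y hy
    rw [mem_image] at hy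
    obtain ⟨c, hc, rfl⟩ := hy
    have := hA hc
    rw [mem_range] at this
    rw [mem_Icc]
    omega
  have hcardimg : (A.image (fun y => y + 1)).card = A.card :=
    card_image_of_injective _ (fun a b h => by simpa using h)
  have hle := le_r 4 N _ hsub (noAP_shift4 A hNo)
  rw [hcardimg] at hle
  have hexp : exp (-(217 / 100) * t) ≤ exp (-(2821 / 100) * (n : ℝ)) :=
    Real.exp_le_exp.2 (by linarith)
  calc (N : ℝ) * exp (-(217 / 100) * t) ≤ (N : ℝ) * exp (-(2821 / 100) * (n : ℝ)) :=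
        mul_le_mul_of_nonneg_left hexp hNpos.le
    _ ≤ A.card := hcard
    _ ≤ r 4 N := by exact_mod_cast hle

end Vale.Agent.P057
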