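import Mathlib
import Vale.Agent.P057.FourParams

open Finset Real

namespace Vale.Agent.P057

section abstract_digits

variable {ι : Type*} [Fintype ι] [DecidableEq ι]

/-- The candidate progression-free set: all digits in prescribed sets, and prescribed total
potential. -/
def setA3 (D : ι → ℕ) (In : ι → ℕ → Prop) [∀ i, DecidablePred (In i)] (φ : ι → ℕ → ℕ) (c : ℕ) :
    Finset ℕ :=
  (range (∏ i, D i)).filter (fun y => (∀ i, In i (y % D i)) ∧ ∑ i, φ i (y % D i) = c)

/-- If on each digit the potential is midpoint-convex on three-term progressions, strictly unless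
the digit is constant, then the level sets contain no three-term progression. -/
theorem noAP_setA3 (D : ι → ℕ) (hDc : Pairwise (Function.onFun Nat.Coprime D))
    (In : ι → ℕ → Prop) [∀ i, DecidablePred (In i)] (φ : ι → ℕ → ℕ)
    (hblock : ∀ i, ∀ y0 y1 y2 : ℕ, y0 + y2 = 2 * y1 → In i (y0 % D i) → In i (y1 % D i) →
      In i (y2 % D i) → 2 * φ i (y1 % D i) ≤ φ i (y0 % D i) + φ i (y2 % D i) ∧
        (φ i (y0 % D i) + φ i (y2 % D i) = 2 * φ i (y1 % D i) → y0 % D i = y1 % D i))
    (c : ℕ) : NoAP 3 (setA3 D In φ c) := by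
  intro a d hd hall
  have mem : ∀ j, j < 3 → (a + j * d) < ∏ i, D i ∧ (∀ i, In i ((a + j * d) % D i)) ∧
      ∑ i, φ i ((a + j * d) % D i) = c := by
    intro j hj
    have := hall j hj
    unfold setA3 at this
    rw [mem_filter, mem_range] at this
    exact this
  obtain ⟨b0, s0, g0⟩ := mem 0 (by norm_num)
  obtain ⟨b1, s1, g1⟩ := mem 1 (by norm_num)
  obtain ⟨_, s2, g2⟩ := mem 2 (by norm_num)
  set y0 := a + 0 * d with hy0
  set y1 := a + 1 * d with hy1
  set y2 := a + 2 * d with hy2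
  have h02 : y0 + y2 = 2 * y1 := by rw [hy0, hy1, hy2]; ring
  have pot := fun i => hblock i y0 y1 y2 h02 (s0 i) (s1 i) (s2 i)
  have hsum : ∑ i, 2 * φ i (y1 % D i) = ∑ i, (φ i (y0 % D i) + φ i (y2 % D i)) := by
    rw [sum_add_distrib, ← mul_sum, g0, g1, g2]
    ring
  have heach := (sum_eq_sum_iff_of_le (fun i _ => (pot i).1)).1 hsum
  have eq01 : ∀ i, y0 % D i = y1 % D i := fun i =>
    (pot i).2 (heach i (mem_univ i)).symm
  have h7 := modEq_prod_of_forall D hDc eq01
  have h8 := Nat.ModEq.eq_of_lt_of_lt h7 b0 b1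
  rw [hy0, hy1] at h8
  omega

/-- The pigeonhole over values of the potential. -/
theorem exists_large3 (D : ι → ℕ) (hDpos : ∀ i, 0 < D i)
    (hDc : Pairwise (Function.onFun Nat.Coprime D))
    (In : ι → ℕ → Prop) [∀ i, DecidablePred (In i)] (φ : ι → ℕ → ℕ) (B : ι → ℕ)
    (hB : ∀ i r, In i r → φ i r ≤ B i)
    (hblock : ∀ i, ∀ y0 y1 y2 : ℕ, y0 + y2 = 2 * y1 → In i (y0 % D i) → In i (y1 % D i) →
      In i (y2 % D i) → 2 * φ i (y1 % D i) ≤ φ i (y0 % D i) + φ i (y2 % D i) ∧
        (φ i (y0 % D i) + φ i (y2 % D i) = 2 * φ i (y1 % D i) → y0 % D i = y1 % D i)) :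
    ∃ A : Finset ℕ, A ⊆ range (∏ i, D i) ∧ NoAP 3 A ∧
      ∏ i, ((range (D i)).filter (In i)).card ≤ ((∑ i, B i) + 1) * A.card := by
  classical
  set Y := (range (∏ i, D i)).filter (fun y => ∀ i, In i (y % D i)) with hY
  have cardY : Y.card = ∏ i, ((range (D i)).filter (In i)).card :=
    card_filter_residues D hDpos hDc In
  rw [← cardY]
  set R := ∑ i, B i with hR
  have hmaps : ∀ y ∈ Y, ∑ i, φ i (y % D i) ∈ range (R + 1) := by
    intro y hy
    rw [mem_range]
    rw [hY, mem_filter] at hy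
    exact Nat.lt_succ_of_le (sum_le_sum fun i _ => hB _ _ (hy.2 i))
  have hfib := card_eq_sum_card_fiberwise hmaps
  obtain ⟨c, hc, hcZ⟩ : ∃ c ∈ range (R + 1), Y.card ≤
      (R + 1) * (Y.filter (fun y => ∑ i, φ i (y % D i) = c)).card := by
    refine exists_le_of_sum_le (nonempty_range_iff.2 (Nat.succ_ne_zero R)) ?_
    rw [sum_const, card_range, smul_eq_mul]
    rw [← mul_sum (range (R + 1)) (fun c => (Y.filter (fun y => ∑ i, φ i (y % D i) = c)).card)
      (R + 1), ← hfib]
  have hset : Y.filter (fun y => ∑ i, φ i (y % D i) = c) = setA3 D In φ c := by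
    ext y
    simp only [hY, setA3, mem_filter, mem_range]
    tauto
  rw [hset] at hcZ
  refine ⟨setA3 D In φ c, ?_, noAP_setA3 D hDc In φ hblock c, hcZ⟩
  intro y hy
  unfold setA3 at hy
  rw [mem_filter] at hy
  exact hy.1

end abstract_digits

end Vale.Agent.P057
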