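import Mathlib
import Vale.Agent.P057.HexBlock

open Finset

namespace Vale.Agent.P057

/-- The residue modulo `p q` of a chart point. -/
def encH (p q : ℕ) (hc : p.Coprime q) (u : ℤ) (v : ℕ) : ℕ :=
  (Nat.chineseRemainder hc (u % (p : ℤ)).toNat v : ℕ)

lemma encH_lt (p q : ℕ) (hc : p.Coprime q) (hp : 0 < p) (hq : 0 < q) (u : ℤ) (v : ℕ) :
    encH p q hc u v < p * q :=
  Nat.chineseRemainder_lt_mul hc _ _ hp.ne' hq.ne'

lemma encH_mod_q (p q : ℕ) (hc : p.Coprime q) (u : ℤ) (v : ℕ) (hv : v < q) :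
    encH p q hc u v % q = v := by
  have h : encH p q hc u v % q = v % q := (Nat.chineseRemainder hc (u % (p : ℤ)).toNat v).2.2
  rw [Nat.mod_eq_of_lt hv] at h
  exact h

lemma encH_mod_p (p q : ℕ) (hc : p.Coprime q) (hp : 0 < p) (u : ℤ) (v : ℕ) :
    encH p q hc u v % p = (u % (p : ℤ)).toNat := by
  have h : encH p q hc u v % p = (u % (p : ℤ)).toNat % p :=
    (Nat.chineseRemainder hc (u % (p : ℤ)).toNat v).2.1
  have hpZ : (0 : ℤ) < p := by exact_mod_cast hp
  have h1 : 0 ≤ u % (p : ℤ) := Int.emod_nonneg _ hpZ.ne'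
  have h2 : u % (p : ℤ) < p := Int.emod_lt_of_pos _ hpZ
  rw [Nat.mod_eq_of_lt (by omega : (u % (p : ℤ)).toNat < p)] at h
  exact h

/-- On the chart, the lift of a residue is the point itself. -/
lemma liftH_emod (p : ℕ) (u : ℤ) (v : ℕ) (hp : 0 < p) (h : InHex (p : ℤ) u (v : ℤ)) :
    liftH p (u % (p : ℤ)).toNat v = u := by
  obtain ⟨a1, a2, a3, a4, a5, a6⟩ := h
  have hpZ : (0 : ℤ) < p := by exact_mod_cast hp
  unfold liftH
  by_cases hu : 0 ≤ u
  · have h1 : u % (p : ℤ) = u := Int.emod_eq_of_lt hu (by omega)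
    rw [h1]
    have h2 : ((u.toNat : ℕ) : ℤ) = u := Int.toNat_of_nonneg hu
    rw [if_pos (by omega)]
    exact h2
  · have h1 : (u + p) % (p : ℤ) = u % (p : ℤ) := Int.add_emod_right _ _
    have h2 : (u + p) % (p : ℤ) = u + p := Int.emod_eq_of_lt (by omega) (by omega)
    have h3 : u % (p : ℤ) = u + p := by rw [← h1, h2]
    rw [h3]
    have h4 : (((u + p).toNat : ℕ) : ℤ) = u + p := Int.toNat_of_nonneg (by omega)
    rw [if_neg (by omega)]
    omega

lemma uOfH_enc (p q : ℕ) (hc : p.Coprime q) (hp : 0 < p) (u : ℤ) (v : ℕ) (hv : v < q)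
    (h : InHex (p : ℤ) u (v : ℤ)) : uOfH p q (encH p q hc u v) = u := by
  unfold uOfH
  rw [encH_mod_p p q hc hp, encH_mod_q p q hc u v hv]
  exact liftH_emod p u v hp h

/-- Chart points satisfying `InTH` give digits, injectively. -/
lemma encH_mem (p q : ℕ) (hc : p.Coprime q) (hp : 0 < p) (hq : 0 < q) (u : ℤ) (v : ℕ) (hv : v < q)
    (h : InTH (p : ℤ) (q : ℤ) u (v : ℤ)) :
    encH p q hc u v ∈ (range (p * q)).filter (InBH p q) ∧ encH p q hc u v % q = v := by
  refine ⟨?_, encH_mod_q p q hc u v hv⟩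
  rw [mem_filter, mem_range]
  refine ⟨encH_lt p q hc hp hq u v, ?_⟩
  unfold InBH
  rw [uOfH_enc p q hc hp u v hv h.1, encH_mod_q p q hc u v hv]
  exact h

lemma encH_inj (p q : ℕ) (hc : p.Coprime q) (hp : 0 < p) (u u' : ℤ) (v v' : ℕ) (hv : v < q)
    (hv' : v' < q) (h : InHex (p : ℤ) u (v : ℤ)) (h' : InHex (p : ℤ) u' (v' : ℤ))
    (he : encH p q hc u v = encH p q hc u' v') : u = u' ∧ v = v' := by
  have h1 := uOfH_enc p q hc hp u v hv h
  have h2 := uOfH_enc p q hc hp u' v' hv' h'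
  have h3 := encH_mod_q p q hc u v hv
  have h4 := encH_mod_q p q hc u' v' hv'
  rw [he] at h1 h3
  constructor
  · rw [← h1, h2]
  · rw [← h3, h4]

/-- The lower end of row `j` of the even points, as an offset. -/
def mE (p j : ℕ) : ℕ := min (p + 6 * j) (18 * j)

/-- The number of even points taken in row `j`. -/
def cE (p j : ℕ) : ℕ := (min (15 * p) (min (14 * p + 12 * j) (20 * p - 12 * j))) / 30

/-- The even points of a block: the parametrisation. -/
def pt0H (p j l : ℕ) : ℤ := 2 * ((l : ℤ) - ((mE p j / 30 : ℕ) : ℤ))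

lemma pt0H_mem (p q j l : ℕ) (hp : p % 2 = 1) (hj : j < (p + 1) / 2) (hl : l < cE p j) :
    InTH (p : ℤ) (q : ℤ) (pt0H p j l) ((2 * j : ℕ) : ℤ) := by
  unfold pt0H
  unfold cE at hl
  unfold mE
  refine ⟨?_, Or.inl ?_⟩
  · unfold InHex
    push_cast
    omega
  · push_cast
    omega

/-- The number of even points. -/
lemma card_evenH_ge (p q : ℕ) (hc : p.Coprime q) (hp : 0 < p) (hpo : p % 2 = 1) (hpq : p ≤ q) :
    ∑ j ∈ range ((p + 1) / 2), cE p j ≤
      ((range (p * q)).filter (fun r => InBH p q r ∧ (r % q) % 2 = 0)).card := by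
  have hq : 0 < q := by omega
  have key := card_le_card_of_injOn
    (s := (range ((p + 1) / 2)).sigma (fun j => range (cE p j)))
    (t := (range (p * q)).filter (fun r => InBH p q r ∧ (r % q) % 2 = 0))
    (fun x => encH p q hc (pt0H p x.1 x.2) (2 * x.1)) ?_ ?_
  · rw [card_sigma] at key
    simpa only [card_range] using key
  · intro x hx
    simp only [coe_sigma, coe_range, Set.mem_sigma_iff, Set.mem_Iio] at hx
    obtain ⟨hj, hl⟩ := hx
    have hv : 2 * x.1 < q := by omega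
    obtain ⟨h1, h2⟩ := encH_mem p q hc hp hq (pt0H p x.1 x.2) (2 * x.1) hv
      (pt0H_mem p q x.1 x.2 hpo hj hl)
    rw [mem_filter] at h1
    simp only [coe_filter, Set.mem_setOf_eq, mem_range]
    rw [mem_range] at h1
    refine ⟨h1.1, h1.2, ?_⟩
    rw [h2]
    omega
  · intro x hx x' hx' he
    simp only [coe_sigma, coe_range, Set.mem_sigma_iff, Set.mem_Iio] at hx hx'
    obtain ⟨hj, hl⟩ := hx
    obtain ⟨hj', hl'⟩ := hx'
    have hv : 2 * x.1 < q := by omega
    have hv' : 2 * x'.1 < q := by omega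
    obtain ⟨h1, h2⟩ := encH_inj p q hc hp _ _ _ _ hv hv' (pt0H_mem p q x.1 x.2 hpo hj hl).1
      (pt0H_mem p q x'.1 x'.2 hpo hj' hl').1 he
    have h3 : x.1 = x'.1 := by omega
    rw [h3] at h1
    unfold pt0H at h1
    have h4 : x.2 = x'.2 := by omega
    exact Sigma.ext h3 (heq_of_eq h4)

/-- The margin of the odd points. -/
def eOdd (p : ℕ) : ℕ := p / 200 + 1

/-- The number of odd points taken in row `j`. -/
def cO (p j : ℕ) : ℕ := (min (12 * j - 23 - eOdd p) (5 * p - eOdd p - 29)) / 30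

/-- The odd points of a block: the parametrisation. -/
def pt1H (p j l : ℕ) : ℤ :=
  2 * ((l : ℤ) - (18 * (j : ℤ) + 24 - 14 * (p : ℤ) - (eOdd p : ℤ)) / 30) + 1

lemma pt1H_mem (p q j l : ℕ) (hp : p % 2 = 1) (hgood : 100000000 * ((q : ℤ) - p) ≤ p)
    (hj : j < (p - 1) / 2) (hl : l < cO p j) :
    InTH (p : ℤ) (q : ℤ) (pt1H p j l) ((2 * j + 1 : ℕ) : ℤ) := by
  unfold pt1H
  unfold cO at hl
  unfold eOdd at hl ⊢
  refine ⟨?_, Or.inr ?_⟩
  · unfold InHex
    push_cast
    omega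
  · unfold InOddH
    push_cast
    refine ⟨by omega, by omega, by omega, hgood⟩

/-- The number of odd points. -/
lemma card_oddH_ge (p q : ℕ) (hc : p.Coprime q) (hp : 0 < p) (hpo : p % 2 = 1) (hpq : p ≤ q)
    (hgood : 100000000 * ((q : ℤ) - p) ≤ p) :
    ∑ j ∈ range ((p - 1) / 2), cO p j ≤
      ((range (p * q)).filter (fun r => InBH p q r ∧ (r % q) % 2 = 1)).card := by
  have hq : 0 < q := by omega
  have key := card_le_card_of_injOn
    (s := (range ((p - 1) / 2)).sigma (fun j => range (cO p j)))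
    (t := (range (p * q)).filter (fun r => InBH p q r ∧ (r % q) % 2 = 1))
    (fun x => encH p q hc (pt1H p x.1 x.2) (2 * x.1 + 1)) ?_ ?_
  · rw [card_sigma] at key
    simpa only [card_range] using key
  · intro x hx
    simp only [coe_sigma, coe_range, Set.mem_sigma_iff, Set.mem_Iio] at hx
    obtain ⟨hj, hl⟩ := hx
    have hv : 2 * x.1 + 1 < q := by omega
    obtain ⟨h1, h2⟩ := encH_mem p q hc hp hq (pt1H p x.1 x.2) (2 * x.1 + 1) hv
      (pt1H_mem p q x.1 x.2 hpo hgood hj hl)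
    rw [mem_filter] at h1
    simp only [coe_filter, Set.mem_setOf_eq, mem_range]
    rw [mem_range] at h1
    refine ⟨h1.1, h1.2, ?_⟩
    rw [h2]
    omega
  · intro x hx x' hx' he
    simp only [coe_sigma, coe_range, Set.mem_sigma_iff, Set.mem_Iio] at hx hx'
    obtain ⟨hj, hl⟩ := hx
    obtain ⟨hj2, hl2⟩ := hx'
    have hv : 2 * x.1 + 1 < q := by omega
    have hv' : 2 * x'.1 + 1 < q := by omega
    obtain ⟨h1, h2⟩ := encH_inj p q hc hp _ _ _ _ hv hv'
      (pt1H_mem p q x.1 x.2 hpo hgood hj hl).1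
      (pt1H_mem p q x'.1 x'.2 hpo hgood hj2 hl2).1 he
    have h3 : x.1 = x'.1 := by omega
    rw [h3] at h1
    unfold pt1H at h1
    have h4 : x.2 = x'.2 := by omega
    exact Sigma.ext h3 (heq_of_eq h4)

/-- A closed form for a sum of terms bounded below by a linear function. -/
lemma sum_lin_ge (c : ℕ → ℕ) (s n : ℕ) (D a b : ℤ)
    (h : ∀ i, i < n → a + b * i ≤ D * (c (s + i) : ℤ)) :
    2 * ((n : ℤ) * a) + b * n * (n - 1) ≤ 2 * D * ((∑ i ∈ range n, c (s + i) : ℕ) : ℤ) := by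
  induction n with
  | zero => simp
  | succ n ih =>
    rw [sum_range_succ]
    have h1 := h n (by omega)
    have h2 := ih (fun i hi => h i (by omega))
    push_cast at h2 ⊢
    nlinarith

/-- The three parts of the row counts of the even points. -/
lemma sum_even_lb (p : ℕ) (hp6 : 1000000 ≤ p) (hpo : p % 2 = 1) :
    (89 : ℤ) * ((p : ℤ) * p) - 6000 * p ≤ 360 * ((∑ j ∈ range ((p + 1) / 2), cE p j : ℕ) : ℤ) := by
  set J1 := (p + 11) / 12 with hJ1
  set J2 := 5 * p / 12 + 1 with hJ2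
  set J := (p + 1) / 2 with hJ
  have hJ12 : J1 ≤ J2 := by omega
  have hJ23 : J2 ≤ J := by omega
  have hsplit : ∑ j ∈ range J, cE p j = ∑ i ∈ range J1, cE p (0 + i) +
      (∑ i ∈ range (J2 - J1), cE p (J1 + i) + ∑ i ∈ range (J - J2), cE p (J2 + i)) := by
    have e1 : J = J1 + ((J2 - J1) + (J - J2)) := by omega
    have e2 : ∀ x, J1 + (J2 - J1 + x) = J2 + x := fun x => by omega
    conv_lhs => rw [e1, sum_range_add, sum_range_add]
    simp only [zero_add, add_assoc, e2]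
  have p1 := sum_lin_ge (cE p) 0 J1 30 (14 * (p : ℤ) - 29) 12 (by
    intro i hi
    unfold cE
    push_cast
    omega)
  have p2 := sum_lin_ge (cE p) J1 (J2 - J1) 30 (15 * (p : ℤ) - 29) 0 (by
    intro i hi
    unfold cE
    push_cast
    omega)
  have p3 := sum_lin_ge (cE p) J2 (J - J2) 30 (20 * (p : ℤ) - 12 * (J2 : ℤ) - 29) (-12) (by
    intro i hi
    unfold cE
    push_cast
    omega)
  rw [hsplit]
  rw [Nat.cast_sub hJ12] at p2
  rw [Nat.cast_sub hJ23] at p3
  push_cast at p1 p2 p3 ⊢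
  set S1 : ℤ := ∑ i ∈ range J1, (cE p (0 + i) : ℤ)
  set S2 : ℤ := ∑ i ∈ range (J2 - J1), (cE p (J1 + i) : ℤ)
  set S3 : ℤ := ∑ i ∈ range (J - J2), (cE p (J2 + i) : ℤ)
  set x : ℤ := (J1 : ℤ) with hx
  set y : ℤ := (J2 : ℤ) with hy
  set z : ℤ := (J : ℤ) with hz
  set P : ℤ := (p : ℤ) with hP
  have hx1 : 12 * x ≤ P + 11 := by omega
  have hy1 : 12 * y ≤ 5 * P + 12 := by omega
  have hz1 : 2 * z = P + 1 := by omega
  have hp6Z : (1000000 : ℤ) ≤ P := by omega
  have hF : -(P * P) - 25 * (P * P) + 12 * (17 * (P * P) - 9 * P - 26) - 12 * (12 * x) -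
      12 * (12 * y) ≤ 12 * (2 * (x * (14 * P - 29)) + 12 * x * (x - 1) +
        (2 * ((y - x) * (15 * P - 29)) + 0 * (y - x) * (y - x - 1)) +
        (2 * ((z - y) * (20 * P - 12 * y - 29)) + -12 * (z - y) * (z - y - 1))) := by
    have e1 : -12 * (z * z) + 40 * (z * P) - 46 * z = 17 * (P * P) - 9 * P - 26 := by
      linear_combination (-3 * (2 * z + P + 1) + 20 * P - 23) * hz1
    nlinarith [sq_nonneg (12 * x - P), sq_nonneg (12 * y - 5 * P)]
  have hP2 : 1000000 * P ≤ P * P := mul_le_mul_of_nonneg_right hp6Z (by linarith)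
  have hfinal : 89 * (P * P) - 6000 * P ≤ 6 * (2 * (x * (14 * P - 29)) + 12 * x * (x - 1) +
        (2 * ((y - x) * (15 * P - 29)) + 0 * (y - x) * (y - x - 1)) +
        (2 * ((z - y) * (20 * P - 12 * y - 29)) + -12 * (z - y) * (z - y - 1))) := by
    linarith
  linarith

/-- Splitting a sum over an initial segment into three consecutive parts. -/
lemma sum_split3 (c : ℕ → ℕ) (w y z : ℕ) (hwy : w ≤ y) (hyz : y ≤ z) :
    ∑ j ∈ range z, c j = ∑ i ∈ range w, c i +
      (∑ i ∈ range (y - w), c (w + i) + ∑ i ∈ range (z - y), c (y + i)) := by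
  have e1 : z = w + ((y - w) + (z - y)) := by omega
  have e2 : ∀ x, w + (y - w + x) = y + x := fun x => by omega
  conv_lhs => rw [e1, sum_range_add, sum_range_add]
  simp only [add_assoc, e2]

/-- The arithmetic of the odd points. -/
lemma odd_arith (P Ee W Y Z S2 S3 : ℤ) (hp6Z : (1000000 : ℤ) ≤ P)
    (hW1 : Ee + 24 ≤ 12 * W) (hW2 : 12 * W ≤ Ee + 35)
    (hY1 : 5 * P + 1 ≤ 12 * Y) (hY2 : 12 * Y ≤ 5 * P + 12) (hZ1 : 2 * Z = P - 1)
    (hE1 : P ≤ 200 * Ee) (hE2 : 200 * Ee ≤ P + 200)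
    (p2 : 2 * ((Y - W) * (12 * W - Ee - 58)) + 12 * (Y - W) * (Y - W - 1) ≤ 2 * 30 * S2)
    (p3 : 2 * ((Z - Y) * (5 * P - Ee - 58)) + 0 * (Z - Y) * (Z - Y - 1) ≤ 2 * 30 * S3) :
    1747 * (P * P) - 52400 * P ≤ 36000 * (S2 + S3) := by
  obtain ⟨n, hn⟩ : ∃ n : ℤ, n = 12 * Y - 12 * W := ⟨_, rfl⟩
  obtain ⟨G, hG⟩ : ∃ G : ℤ, G = 5 * P - Ee := ⟨_, rfl⟩
  have hn1 : G - 34 ≤ n := by omega
  have hn2 : n ≤ G - 12 := by omega
  have hG1 : 999 * P - 200 ≤ 200 * G := by omega
  have hG2 : G ≤ 5 * P := by omega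
  have hm : P - 18 ≤ 12 * (Z - Y) := by omega
  have hG34 : 0 ≤ G - 34 := by omega
  have hsq : (G - 34) * (G - 34) ≤ n * n := mul_le_mul hn1 hn1 hG34 (by omega)
  have hF2 : (G - 34) * (G - 34) - 80 * n ≤ 12 * (2 * ((Y - W) * (12 * W - Ee - 58)) +
      12 * (Y - W) * (Y - W - 1)) := by
    have h0 : 12 * (Y - W) = n := by rw [hn]; ring
    have hd : 0 ≤ (12 * W - Ee - 24) * n := mul_nonneg (by omega) (by omega)
    have e1 : 12 * (2 * ((Y - W) * (12 * W - Ee - 58)) + 12 * (Y - W) * (Y - W - 1)) =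
        n * n + 2 * n * (12 * W - Ee - 64) := by
      rw [← h0]
      ring
    rw [e1]
    linarith
  have hF3 : 2 * ((P - 18) * (G - 58)) ≤ 12 * (2 * ((Z - Y) * (G - 58))) := by
    have h1 : (P - 18) * (G - 58) ≤ (12 * (Z - Y)) * (G - 58) :=
      mul_le_mul_of_nonneg_right hm (by omega)
    linarith
  have e2 : 5 * P - Ee - 58 = G - 58 := by rw [hG]
  rw [e2] at p3
  have hP2 : 1000000 * P ≤ P * P := mul_le_mul_of_nonneg_right hp6Z (by linarith)
  have hGG : (999 * P - 200) * (999 * P - 200) ≤ (200 * G) * (200 * G) :=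
    mul_le_mul hG1 hG1 (by omega) (by omega)
  have hPG : P * (999 * P - 200) ≤ P * (200 * G) := mul_le_mul_of_nonneg_left hG1 (by omega)
  nlinarith

/-- The parts of the row counts of the odd points. -/
lemma sum_odd_lb (p : ℕ) (hp6 : 1000000 ≤ p) (hpo : p % 2 = 1) :
    (1747 : ℤ) * ((p : ℤ) * p) - 52400 * p ≤
      36000 * ((∑ j ∈ range ((p - 1) / 2), cO p j : ℕ) : ℤ) := by
  set e := eOdd p with he
  have he1 : e = p / 200 + 1 := rfl
  set w := (e + 23) / 12 + 1 with hw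
  set y := 5 * p / 12 + 1 with hy
  set z := (p - 1) / 2 with hz
  have hwy : w ≤ y := by omega
  have hyz : y ≤ z := by omega
  have hsplit := sum_split3 (cO p) w y z hwy hyz
  have p2 := sum_lin_ge (cO p) w (y - w) 30 (12 * (w : ℤ) - (e : ℤ) - 58) 12 (by
    intro i hi
    unfold cO
    rw [← he]
    push_cast
    omega)
  have p3 := sum_lin_ge (cO p) y (z - y) 30 (5 * (p : ℤ) - (e : ℤ) - 58) 0 (by
    intro i hi
    unfold cO
    rw [← he]
    push_cast
    omega)
  rw [hsplit]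
  rw [Nat.cast_sub hwy] at p2
  rw [Nat.cast_sub hyz] at p3
  have hmain := odd_arith (p : ℤ) (e : ℤ) (w : ℤ) (y : ℤ) (z : ℤ) _ _ (by omega) (by omega)
    (by omega) (by omega) (by omega) (by omega) (by omega) (by omega) p2 p3
  push_cast at hmain ⊢
  have hS1 : (0 : ℤ) ≤ ∑ i ∈ range w, (cO p i : ℤ) := sum_nonneg fun i _ => Int.natCast_nonneg _
  linarith

/-- The size of the digit set of a block, in general. -/
lemma card_blockH_ge (p q : ℕ) (hc : p.Coprime q) (hp6 : 1000000 ≤ p) (hpo : p % 2 = 1)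
    (hpq : p ≤ q) :
    22 * (p * p) ≤ 90 * ((range (p * q)).filter (InBH p q)).card := by
  have hp : 0 < p := by omega
  have h1 := card_evenH_ge p q hc hp hpo hpq
  have h2 := sum_even_lb p hp6 hpo
  have h3 : (range (p * q)).filter (fun r => InBH p q r ∧ (r % q) % 2 = 0) ⊆
      (range (p * q)).filter (InBH p q) := by
    intro r hr
    rw [mem_filter] at hr ⊢
    exact ⟨hr.1, hr.2.1⟩
  have h4 := card_le_card h3
  have h5 : ((∑ j ∈ range ((p + 1) / 2), cE p j : ℕ) : ℤ) ≤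
      (((range (p * q)).filter (InBH p q)).card : ℤ) := by
    exact_mod_cast h1.trans h4
  have hp6Z : (1000000 : ℤ) ≤ (p : ℤ) := by exact_mod_cast hp6
  have hP2 : 1000000 * (p : ℤ) ≤ (p : ℤ) * p := mul_le_mul_of_nonneg_right hp6Z (by linarith)
  have hmain : 22 * ((p : ℤ) * p) ≤ 90 * (((range (p * q)).filter (InBH p q)).card : ℤ) := by
    linarith
  exact_mod_cast hmain

/-- The size of the digit set of a block, for close `p` and `q`. -/
lemma card_blockH_good (p q : ℕ) (hc : p.Coprime q) (hp6 : 1000000 ≤ p) (hpo : p % 2 = 1)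
    (hpq : p ≤ q) (hgood : 100000000 * ((q : ℤ) - p) ≤ p) :
    2957 * (p * q) ≤ 10000 * ((range (p * q)).filter (InBH p q)).card := by
  have hp : 0 < p := by omega
  have h1 := card_evenH_ge p q hc hp hpo hpq
  have h2 := card_oddH_ge p q hc hp hpo hpq hgood
  have h3 := sum_even_lb p hp6 hpo
  have h3' := sum_odd_lb p hp6 hpo
  have hdisj : Disjoint ((range (p * q)).filter (fun r => InBH p q r ∧ (r % q) % 2 = 0))
      ((range (p * q)).filter (fun r => InBH p q r ∧ (r % q) % 2 = 1)) := by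
    rw [disjoint_left]
    intro r hr hr'
    rw [mem_filter] at hr hr'
    omega
  have hsub : (range (p * q)).filter (fun r => InBH p q r ∧ (r % q) % 2 = 0) ∪
      (range (p * q)).filter (fun r => InBH p q r ∧ (r % q) % 2 = 1) ⊆
        (range (p * q)).filter (InBH p q) := by
    intro r hr
    rw [mem_union, mem_filter, mem_filter] at hr
    rw [mem_filter]
    rcases hr with hr | hr
    · exact ⟨hr.1, hr.2.1⟩
    · exact ⟨hr.1, hr.2.1⟩
  have h4 := card_le_card hsub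
  rw [card_union_of_disjoint hdisj] at h4
  have h5 : ((∑ j ∈ range ((p + 1) / 2), cE p j : ℕ) : ℤ) +
      ((∑ j ∈ range ((p - 1) / 2), cO p j : ℕ) : ℤ) ≤
        (((range (p * q)).filter (InBH p q)).card : ℤ) := by
    exact_mod_cast (Nat.add_le_add h1 h2).trans h4
  have hp6Z : (1000000 : ℤ) ≤ (p : ℤ) := by exact_mod_cast hp6
  have hP2 : 1000000 * (p : ℤ) ≤ (p : ℤ) * p := mul_le_mul_of_nonneg_right hp6Z (by linarith)
  have h11 : (q : ℤ) * 100000000 ≤ p * 100000001 := by linarith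
  have h12 : (p : ℤ) * ((q : ℤ) * 100000000) ≤ p * (p * 100000001) :=
    mul_le_mul_of_nonneg_left h11 (by linarith)
  have hmain : 2957 * ((p : ℤ) * q) ≤ 10000 * (((range (p * q)).filter (InBH p q)).card : ℤ) := by
    nlinarith
  exact_mod_cast hmain

end Vale.Agent.P057
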