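import Mathlib
import Vale.Agent.P057.ThreeGlobal

open Finset

namespace Vale.Agent.P057

/-- The chart of a block: integer points `(u, v)` with `0 ≤ u + (3/10) v < p` and `0 ≤ v < p`. -/
abbrev InChart (p u v : ℤ) : Prop :=
  0 ≤ 10 * u + 3 * v ∧ 10 * u + 3 * v < 10 * p ∧ 0 ≤ v ∧ v < p

/-- The extra points of a block: both coordinates odd, near the right side of the chart. They are
used only for blocks with `p`, `q` very close. -/
abbrev InOdd (p q u v : ℤ) : Prop :=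
  u % 2 = 1 ∧ v % 2 = 1 ∧ 7 * p ≤ 10 * u + 3 * v ∧ 5007 * p ≤ 250 * (20 * u + 13 * v) ∧
    10000000 * (q - p) ≤ p

/-- The digit set of a block in chart coordinates. -/
abbrev InT (p q u v : ℤ) : Prop :=
  InChart p u v ∧ ((u % 2 = 0 ∧ v % 2 = 0) ∨ InOdd p q u v)

/-- The potential of a block in chart coordinates. -/
def pot3 (p u v : ℤ) : ℤ := 1000000 * (u + v) ^ 2 + (p - v) ^ 2

lemma pot3_identity (p ua ub uc va vb vc T E : ℤ) (hT : ua + va + (uc + vc) - 2 * (ub + vb) = T)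
    (hE : p - va + (p - vc) - 2 * (p - vb) = E) :
    2 * (pot3 p ua va + pot3 p uc vc - 2 * pot3 p ub vb) =
      1000000 * ((ua + va - (uc + vc)) ^ 2 + 4 * T * (ub + vb) + T ^ 2) +
        ((va - vc) ^ 2 + 4 * E * (p - vb) + E ^ 2) := by
  subst hT hE
  unfold pot3
  ring

/-- The case of a progression of digits in different classes: the potential is strictly convex. -/
lemma sheets_pos (p q ua ub uc va vb vc : ℤ) (hp : 0 < p) (hpq : p ≤ q)
    (ha : InChart p ua va) (hb : InChart p ub vb) (hc : InChart p uc vc)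
    (hodd : InOdd p q uc vc)
    (hU : ua + uc - 2 * ub = p ∨ ua + uc - 2 * ub = -p)
    (hV : va + vc - 2 * vb = q ∨ va + vc - 2 * vb = -q) :
    2 * pot3 p ub vb < pot3 p ua va + pot3 p uc vc := by
  obtain ⟨a1, a2, a3, a4⟩ := ha
  obtain ⟨b1, b2, b3, b4⟩ := hb
  obtain ⟨c1, c2, c3, c4⟩ := hc
  obtain ⟨o1, o2, o3, o4, o5⟩ := hodd
  have ht0 : 0 ≤ ub + vb := by omega
  have ht1 : ub + vb ≤ 2 * p := by omega
  have he0 : 0 ≤ p - vb := by omega
  have he1 : p - vb ≤ p := by omega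
  have hqp : 0 ≤ q - p := by omega
  suffices h : 0 < 2 * (pot3 p ua va + pot3 p uc vc - 2 * pot3 p ub vb) by linarith
  rcases hU with hU | hU <;> rcases hV with hV | hV
  · -- `(p, q)`
    rw [pot3_identity p ua ub uc va vb vc (p + q) (-q) (by linarith) (by linarith)]
    have h1 : 0 ≤ (p + q) * (ub + vb) := mul_nonneg (by linarith) ht0
    have h2 : q * (p - vb) ≤ q * p := mul_le_mul_of_nonneg_left he1 (by linarith)
    have h3 := sq_nonneg (ua + va - (uc + vc))
    have h4 := sq_nonneg (va - vc)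
    have h5 := sq_nonneg (p - q)
    have h6 : 0 < q ^ 2 := pow_pos (by linarith) 2
    nlinarith
  · -- `(p, -q)`
    rw [pot3_identity p ua ub uc va vb vc (p - q) q (by linarith) (by linarith)]
    have h1 : (q - p) * (ub + vb) ≤ (q - p) * (2 * p) := mul_le_mul_of_nonneg_left ht1 hqp
    have h2 : 0 ≤ q * (p - vb) := mul_nonneg (by linarith) he0
    have h3 := sq_nonneg (ua + va - (uc + vc))
    have h4 := sq_nonneg (va - vc)
    have h5 := sq_nonneg (p - q)
    have h6 : 10000000 * (q - p) * p ≤ p * p := mul_le_mul_of_nonneg_right o5 hp.le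
    have h7 : p * p ≤ q * q := mul_le_mul hpq hpq hp.le (by linarith)
    have h8 : 0 < p * p := mul_pos hp hp
    nlinarith
  · -- `(-p, q)`
    rw [pot3_identity p ua ub uc va vb vc (q - p) (-q) (by linarith) (by linarith)]
    set d := uc + vc - (ua + va) with hd
    have hd1 : 279 * p ≤ 100000 * d := by omega
    have hd2 : (279 * p) * (279 * p) ≤ (100000 * d) * (100000 * d) :=
      mul_le_mul hd1 hd1 (by positivity) (by linarith)
    have h1 : 0 ≤ (q - p) * (ub + vb) := mul_nonneg hqp ht0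
    have h2 : q * (p - vb) ≤ q * p := mul_le_mul_of_nonneg_left he1 (by linarith)
    have h4 := sq_nonneg (va - vc)
    have h5 := sq_nonneg (q - 2 * p)
    have h6 := sq_nonneg (q - p)
    have h8 : 0 < p * p := mul_pos hp hp
    have h9 : (ua + va - (uc + vc)) ^ 2 = d * d := by rw [hd]; ring
    rw [h9]
    nlinarith
  · -- `(-p, -q)` does not occur
    exfalso
    omega

/-- The possible values of the multiples. -/
lemma block_kranges (p q ua ub uc va vb vc k1 k2 : ℤ) (hp : 0 < p) (hpq : p ≤ q)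
    (hU : ua + uc - 2 * ub = p * k1) (hV : va + vc - 2 * vb = q * k2)
    (ha : InChart p ua va) (hb : InChart p ub vb) (hc : InChart p uc vc) :
    (k1 = -2 ∨ k1 = -1 ∨ k1 = 0 ∨ k1 = 1 ∨ k1 = 2) ∧ (k2 = -1 ∨ k2 = 0 ∨ k2 = 1) := by
  obtain ⟨a1, a2, a3, a4⟩ := ha
  obtain ⟨b1, b2, b3, b4⟩ := hb
  obtain ⟨c1, c2, c3, c4⟩ := hc
  have hq : 0 < q := by omega
  have k2a : k2 < 2 := by
    by_contra hcon
    have h1 : 2 ≤ k2 := by omega
    have h2 : q * 2 ≤ q * k2 := mul_le_mul_of_nonneg_left h1 hq.le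
    omega
  have k2b : -2 < k2 := by
    by_contra hcon
    have h1 : k2 ≤ -2 := by omega
    have h2 : q * k2 ≤ q * (-2) := mul_le_mul_of_nonneg_left h1 hq.le
    omega
  have k1a : k1 < 3 := by
    by_contra hcon
    have h1 : 3 ≤ k1 := by omega
    have h2 : p * 3 ≤ p * k1 := mul_le_mul_of_nonneg_left h1 hp.le
    omega
  have k1b : -3 < k1 := by
    by_contra hcon
    have h1 : k1 ≤ -3 := by omega
    have h2 : p * k1 ≤ p * (-3) := mul_le_mul_of_nonneg_left h1 hp.le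
    omega
  omega

/-- The parity argument: either the digits form a true progression in chart coordinates, or the
two outer digits lie in different classes. -/
lemma block_cases (p q ua ub uc va vb vc U V : ℤ) (hpo : p % 2 = 1) (hqo : q % 2 = 1)
    (hU : ua + uc - 2 * ub = U) (hV : va + vc - 2 * vb = V)
    (hUc : U = -(2 * p) ∨ U = -p ∨ U = 0 ∨ U = p ∨ U = 2 * p) (hVc : V = -q ∨ V = 0 ∨ V = q)
    (h0 : 0 < p) (a2 : 10 * ua + 3 * va < 10 * p) (a1 : 0 ≤ 10 * ua + 3 * va)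
    (b2 : 10 * ub + 3 * vb < 10 * p) (b1 : 0 ≤ 10 * ub + 3 * vb)
    (c2 : 10 * uc + 3 * vc < 10 * p) (c1 : 0 ≤ 10 * uc + 3 * vc)
    (acls : (ua % 2 = 0 ∧ va % 2 = 0) ∨ InOdd p q ua va)
    (ccls : (uc % 2 = 0 ∧ vc % 2 = 0) ∨ InOdd p q uc vc)
    (hV0 : V = 0 → -(2 * p) < U ∧ U < 2 * p) :
    (U = 0 ∧ V = 0) ∨
      ((U = p ∨ U = -p) ∧ (V = q ∨ V = -q) ∧ (InOdd p q uc vc ∨ InOdd p q ua va)) := by
  unfold InOdd at acls ccls ⊢
  omega

/-- The midpoint-convexity of the potential on a block, in chart coordinates. -/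
theorem block_core (p q ua ub uc va vb vc k1 k2 : ℤ) (hp : 0 < p) (hpq : p ≤ q)
    (hpo : p % 2 = 1) (hqo : q % 2 = 1)
    (hU : ua + uc - 2 * ub = p * k1) (hV : va + vc - 2 * vb = q * k2)
    (ha : InT p q ua va) (hb : InT p q ub vb) (hc : InT p q uc vc) :
    2 * pot3 p ub vb ≤ pot3 p ua va + pot3 p uc vc ∧
      (pot3 p ua va + pot3 p uc vc = 2 * pot3 p ub vb → ua = ub ∧ va = vb) := by
  obtain ⟨achart, acls⟩ := ha
  obtain ⟨bchart, -⟩ := hb
  obtain ⟨cchart, ccls⟩ := hc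
  obtain ⟨hk1, hk2⟩ := block_kranges p q ua ub uc va vb vc k1 k2 hp hpq hU hV achart bchart cchart
  have hUc : p * k1 = -(2 * p) ∨ p * k1 = -p ∨ p * k1 = 0 ∨ p * k1 = p ∨ p * k1 = 2 * p := by
    rcases hk1 with rfl | rfl | rfl | rfl | rfl
    · left; ring
    · right; left; ring
    · right; right; left; ring
    · right; right; right; left; ring
    · right; right; right; right; ring
  have hVc : q * k2 = -q ∨ q * k2 = 0 ∨ q * k2 = q := by
    rcases hk2 with rfl | rfl | rfl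
    · left; ring
    · right; left; ring
    · right; right; ring
  have hV0 : q * k2 = 0 → -(2 * p) < p * k1 ∧ p * k1 < 2 * p := by
    intro h0
    obtain ⟨a1, a2, a3, a4⟩ := achart
    obtain ⟨b1, b2, b3, b4⟩ := bchart
    obtain ⟨c1, c2, c3, c4⟩ := cchart
    rw [h0] at hV
    constructor <;> omega
  have hcases := block_cases p q ua ub uc va vb vc (p * k1) (q * k2) hpo hqo hU hV hUc hVc hp
    achart.2.1 achart.1 bchart.2.1 bchart.1 cchart.2.1 cchart.1 acls ccls hV0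
  rw [← hU, ← hV] at hcases
  rcases hcases with ⟨e1, e2⟩ | ⟨e1, e2, e3⟩
  · have key : 2 * (pot3 p ua va + pot3 p uc vc - 2 * pot3 p ub vb) =
        1000000 * (ua + va - (uc + vc)) ^ 2 + (va - vc) ^ 2 := by
      rw [pot3_identity p ua ub uc va vb vc 0 0 (by linarith) (by linarith)]
      ring
    have h1 := sq_nonneg (ua + va - (uc + vc))
    have h2 := sq_nonneg (va - vc)
    constructor
    · linarith
    · intro heq
      have h3 : 1000000 * (ua + va - (uc + vc)) ^ 2 + (va - vc) ^ 2 = 0 := by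
        rw [← key, heq]
        ring
      have h4 : (va - vc) ^ 2 = 0 := by linarith
      have h5 : (ua + va - (uc + vc)) ^ 2 = 0 := by linarith
      have h6 := pow_eq_zero_iff (two_ne_zero) |>.1 h4
      have h7 := pow_eq_zero_iff (two_ne_zero) |>.1 h5
      constructor <;> omega
  · rcases e3 with e3 | e3
    · have h := sheets_pos p q ua ub uc va vb vc hp hpq achart bchart cchart e3 e1 e2
      exact ⟨h.le, fun heq => absurd heq (by omega)⟩
    · have e1' : uc + ua - 2 * ub = p ∨ uc + ua - 2 * ub = -p := by omega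
      have e2' : vc + va - 2 * vb = q ∨ vc + va - 2 * vb = -q := by omega
      have h := sheets_pos p q uc ub ua vc vb va hp hpq cchart bchart achart e3 e1' e2'
      exact ⟨by omega, fun heq => absurd heq (by omega)⟩

/-- The chart lift of a residue modulo `p`. -/
def liftU (p ρ v : ℕ) : ℤ := if 10 * ρ + 3 * v < 10 * p then (ρ : ℤ) else (ρ : ℤ) - p

/-- The first chart coordinate of a residue modulo `p q`. -/
def uOf (p q r : ℕ) : ℤ := liftU p (r % p) (r % q)

/-- The digit set of a block, on residues modulo `p q`. -/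
abbrev InB (p q r : ℕ) : Prop := InT (p : ℤ) (q : ℤ) (uOf p q r) ((r % q : ℕ) : ℤ)

/-- The potential of a block, on residues modulo `p q`. -/
def phiB (p q r : ℕ) : ℕ := (pot3 (p : ℤ) (uOf p q r) ((r % q : ℕ) : ℤ)).toNat

lemma phiB_cast (p q r : ℕ) :
    ((phiB p q r : ℕ) : ℤ) = pot3 (p : ℤ) (uOf p q r) ((r % q : ℕ) : ℤ) := by
  unfold phiB
  apply Int.toNat_of_nonneg
  unfold pot3
  positivity

lemma liftU_cases (p ρ v : ℕ) : liftU p ρ v = (ρ : ℤ) ∨ liftU p ρ v = (ρ : ℤ) - p := by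
  unfold liftU
  split_ifs
  · left; rfl
  · right; rfl

lemma uOf_mod (p q y : ℕ) : uOf p q (y % (p * q)) = liftU p (y % p) (y % q) := by
  unfold uOf
  rw [Nat.mod_mul_right_mod, Nat.mod_mul_left_mod]

lemma liftU_combo (p y0 y1 y2 v0 v1 v2 : ℕ) (h : y0 + y2 = 2 * y1) :
    ∃ k : ℤ, liftU p (y0 % p) v0 + liftU p (y2 % p) v2 - 2 * liftU p (y1 % p) v1 = (p : ℤ) * k := by
  obtain ⟨k, hk⟩ := mod_combo_second p y0 y1 y2 h
  have key : ∀ ρ v : ℕ, ∃ e : ℤ, liftU p ρ v = (ρ : ℤ) - (p : ℤ) * e := by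
    intro ρ v
    rcases liftU_cases p ρ v with h | h
    · exact ⟨0, by rw [h]; ring⟩
    · exact ⟨1, by rw [h]; ring⟩
  obtain ⟨e0, h0⟩ := key (y0 % p) v0
  obtain ⟨e1, h1⟩ := key (y1 % p) v1
  obtain ⟨e2, h2⟩ := key (y2 % p) v2
  refine ⟨k - e0 - e2 + 2 * e1, ?_⟩
  rw [h0, h1, h2]
  linear_combination hk

/-- Midpoint convexity of the potential along a three-term progression, on a block. -/
theorem block3 (p q : ℕ) (hpos : 0 < p) (hpo : p % 2 = 1) (hqo : q % 2 = 1) (hpq : p ≤ q)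
    (hc : p.Coprime q) (y0 y1 y2 : ℕ) (h : y0 + y2 = 2 * y1)
    (h0 : InB p q (y0 % (p * q))) (h1 : InB p q (y1 % (p * q))) (h2 : InB p q (y2 % (p * q))) :
    2 * phiB p q (y1 % (p * q)) ≤ phiB p q (y0 % (p * q)) + phiB p q (y2 % (p * q)) ∧
      (phiB p q (y0 % (p * q)) + phiB p q (y2 % (p * q)) = 2 * phiB p q (y1 % (p * q)) →
        y0 % (p * q) = y1 % (p * q)) := by
  have e0 := Nat.mod_mul_left_mod y0 p q
  have e1 := Nat.mod_mul_left_mod y1 p q
  have e2 := Nat.mod_mul_left_mod y2 p q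
  have hposZ : (0 : ℤ) < p := by exact_mod_cast hpos
  have hpqZ : (p : ℤ) ≤ q := by exact_mod_cast hpq
  have hpoZ : (p : ℤ) % 2 = 1 := by omega
  have hqoZ : (q : ℤ) % 2 = 1 := by omega
  unfold InB at h0 h1 h2
  rw [uOf_mod, e0] at h0
  rw [uOf_mod, e1] at h1
  rw [uOf_mod, e2] at h2
  obtain ⟨k1, hk1⟩ := liftU_combo p y0 y1 y2 (y0 % q) (y1 % q) (y2 % q) h
  obtain ⟨k2, hk2⟩ := mod_combo_second q y0 y1 y2 h
  have hcore := block_core (p : ℤ) (q : ℤ) _ _ _ _ _ _ k1 k2 hposZ hpqZ hpoZ hqoZ hk1 hk2 h0 h1 h2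
  have c0 := phiB_cast p q (y0 % (p * q))
  have c1 := phiB_cast p q (y1 % (p * q))
  have c2 := phiB_cast p q (y2 % (p * q))
  rw [uOf_mod, e0] at c0
  rw [uOf_mod, e1] at c1
  rw [uOf_mod, e2] at c2
  obtain ⟨hle, heq⟩ := hcore
  rw [← c0, ← c1, ← c2] at hle heq
  refine ⟨by omega, fun hphi => ?_⟩
  obtain ⟨hu, hv⟩ := heq (by omega)
  have hr0 : y0 % p < p := Nat.mod_lt _ hpos
  have hr1 : y1 % p < p := Nat.mod_lt _ hpos
  have hrho : y0 % p = y1 % p := by
    rcases liftU_cases p (y0 % p) (y0 % q) with l0 | l0 <;>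
      rcases liftU_cases p (y1 % p) (y1 % q) with l1 | l1 <;> omega
  have hvv : y0 % q = y1 % q := by omega
  have hmod : y0 ≡ y1 [MOD p * q] := (Nat.modEq_and_modEq_iff_modEq_mul hc).1 ⟨hrho, hvv⟩
  exact hmod

/-- The bound for the potential. -/
lemma phiB_le (p q r : ℕ) (h : InB p q r) : phiB p q r ≤ 4000001 * p ^ 2 := by
  obtain ⟨⟨a1, a2, a3, a4⟩, -⟩ := h
  have hZ : ((phiB p q r : ℕ) : ℤ) ≤ ((4000001 * p ^ 2 : ℕ) : ℤ) := by
    rw [phiB_cast]
    unfold pot3
    set u := uOf p q r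
    set v : ℤ := ((r % q : ℕ) : ℤ)
    have h1 : 0 ≤ u + v := by omega
    have h2 : u + v ≤ 2 * (p : ℤ) := by omega
    have h3 : 0 ≤ (p : ℤ) - v := by omega
    have h4 : (p : ℤ) - v ≤ p := by omega
    have h5 : (u + v) ^ 2 ≤ (2 * (p : ℤ)) ^ 2 := pow_le_pow_left₀ h1 h2 2
    have h6 : ((p : ℤ) - v) ^ 2 ≤ (p : ℤ) ^ 2 := pow_le_pow_left₀ h3 h4 2
    push_cast
    nlinarith
  exact_mod_cast hZ

end Vale.Agent.P057
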