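import Mathlib
import Vale.Agent.P057.ThreeBlock

open Finset

namespace Vale.Agent.P057

/-- The residue modulo `p q` of a chart point. -/
def enc (p q : ℕ) (hc : p.Coprime q) (u : ℤ) (v : ℕ) : ℕ :=
  (Nat.chineseRemainder hc (u % (p : ℤ)).toNat v : ℕ)

lemma enc_lt (p q : ℕ) (hc : p.Coprime q) (hp : 0 < p) (hq : 0 < q) (u : ℤ) (v : ℕ) :
    enc p q hc u v < p * q :=
  Nat.chineseRemainder_lt_mul hc _ _ hp.ne' hq.ne'

lemma enc_mod_q (p q : ℕ) (hc : p.Coprime q) (u : ℤ) (v : ℕ) (hv : v < q) :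
    enc p q hc u v % q = v := by
  have h : enc p q hc u v % q = v % q := (Nat.chineseRemainder hc (u % (p : ℤ)).toNat v).2.2
  rw [Nat.mod_eq_of_lt hv] at h
  exact h

lemma enc_mod_p (p q : ℕ) (hc : p.Coprime q) (hp : 0 < p) (u : ℤ) (v : ℕ) :
    enc p q hc u v % p = (u % (p : ℤ)).toNat := by
  have h : enc p q hc u v % p = (u % (p : ℤ)).toNat % p :=
    (Nat.chineseRemainder hc (u % (p : ℤ)).toNat v).2.1
  have hpZ : (0 : ℤ) < p := by exact_mod_cast hp
  have h1 : 0 ≤ u % (p : ℤ) := Int.emod_nonneg _ hpZ.ne'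
  have h2 : u % (p : ℤ) < p := Int.emod_lt_of_pos _ hpZ
  rw [Nat.mod_eq_of_lt (by omega : (u % (p : ℤ)).toNat < p)] at h
  exact h

/-- On the chart, the lift of a residue is the point itself. -/
lemma liftU_emod (p : ℕ) (u : ℤ) (v : ℕ) (hp : 0 < p) (h : InChart (p : ℤ) u (v : ℤ)) :
    liftU p (u % (p : ℤ)).toNat v = u := by
  obtain ⟨a1, a2, a3, a4⟩ := h
  have hpZ : (0 : ℤ) < p := by exact_mod_cast hp
  unfold liftU
  by_cases hu : 0 ≤ u
  · have h1 : u % (p : ℤ) = u := Int.emod_eq_of_lt hu (by omega)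
    rw [h1]
    have h2 : ((u.toNat : ℕ) : ℤ) = u := Int.toNat_of_nonneg hu
    rw [if_pos (by omega)]
    exact h2
  · have h1 : (u + p) % (p : ℤ) = u % (p : ℤ) := Int.add_emod_right _ _
    have h2 : (u + p) % (p : ℤ) = u + p := Int.emod_eq_of_lt (by omega) (by omega)
    have h3 : u % (p : ℤ) = u + p := by rw [← h1, h2]
    rw [h3]
    have h4 : (((u + p).toNat : ℕ) : ℤ) = u + p := Int.toNat_of_nonneg (by omega)
    rw [if_neg (by omega)]
    omega

lemma uOf_enc (p q : ℕ) (hc : p.Coprime q) (hp : 0 < p) (u : ℤ) (v : ℕ) (hv : v < q)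
    (h : InChart (p : ℤ) u (v : ℤ)) : uOf p q (enc p q hc u v) = u := by
  unfold uOf
  rw [enc_mod_p p q hc hp, enc_mod_q p q hc u v hv]
  exact liftU_emod p u v hp h

/-- Chart points satisfying `InT` give digits, injectively. -/
lemma enc_mem (p q : ℕ) (hc : p.Coprime q) (hp : 0 < p) (hq : 0 < q) (u : ℤ) (v : ℕ) (hv : v < q)
    (h : InT (p : ℤ) (q : ℤ) u (v : ℤ)) :
    enc p q hc u v ∈ (range (p * q)).filter (InB p q) ∧ enc p q hc u v % q = v := by
  refine ⟨?_, enc_mod_q p q hc u v hv⟩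
  rw [mem_filter, mem_range]
  refine ⟨enc_lt p q hc hp hq u v, ?_⟩
  unfold InB
  rw [uOf_enc p q hc hp u v hv h.1, enc_mod_q p q hc u v hv]
  exact h

lemma enc_inj (p q : ℕ) (hc : p.Coprime q) (hp : 0 < p) (u u' : ℤ) (v v' : ℕ) (hv : v < q)
    (hv' : v' < q) (h : InChart (p : ℤ) u (v : ℤ)) (h' : InChart (p : ℤ) u' (v' : ℤ))
    (he : enc p q hc u v = enc p q hc u' v') : u = u' ∧ v = v' := by
  have h1 := uOf_enc p q hc hp u v hv h
  have h2 := uOf_enc p q hc hp u' v' hv' h'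
  have h3 := enc_mod_q p q hc u v hv
  have h4 := enc_mod_q p q hc u' v' hv'
  rw [he] at h1 h3
  constructor
  · rw [← h1, h2]
  · rw [← h3, h4]

/-- The even points of a block: the parametrisation. -/
def pt0U (j l : ℕ) : ℤ := 2 * ((l : ℤ) - ((3 * j / 10 : ℕ) : ℤ))

lemma pt0_mem (p q j l : ℕ) (hp : p % 2 = 1) (hj : j < (p + 1) / 2) (hl : l < (p - 1) / 2) :
    InT (p : ℤ) (q : ℤ) (pt0U j l) ((2 * j : ℕ) : ℤ) := by
  unfold pt0U
  refine ⟨?_, Or.inl ?_⟩
  · unfold InChart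
    push_cast
    omega
  · push_cast
    omega

/-- The number of even points. -/
lemma card_even_ge (p q : ℕ) (hc : p.Coprime q) (hp : 0 < p) (hpo : p % 2 = 1) (hpq : p ≤ q) :
    ((p + 1) / 2) * ((p - 1) / 2) ≤
      ((range (p * q)).filter (fun r => InB p q r ∧ (r % q) % 2 = 0)).card := by
  have hq : 0 < q := by omega
  have key := card_le_card_of_injOn (s := range ((p + 1) / 2) ×ˢ range ((p - 1) / 2))
    (t := (range (p * q)).filter (fun r => InB p q r ∧ (r % q) % 2 = 0))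
    (fun x => enc p q hc (pt0U x.1 x.2) (2 * x.1)) ?_ ?_
  · rwa [card_product, card_range, card_range] at key
  · intro x hx
    simp only [coe_product, coe_range, Set.mem_prod, Set.mem_Iio] at hx
    obtain ⟨hj, hl⟩ := hx
    have hv : 2 * x.1 < q := by omega
    obtain ⟨h1, h2⟩ := enc_mem p q hc hp hq (pt0U x.1 x.2) (2 * x.1) hv (pt0_mem p q x.1 x.2 hpo hj hl)
    rw [mem_filter] at h1
    simp only [coe_filter, Set.mem_setOf_eq, mem_range]
    rw [mem_range] at h1
    refine ⟨h1.1, h1.2, ?_⟩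
    rw [h2]
    omega
  · intro x hx x' hx' he
    simp only [coe_product, coe_range, Set.mem_prod, Set.mem_Iio] at hx hx'
    obtain ⟨hj, hl⟩ := hx
    obtain ⟨hj', hl'⟩ := hx'
    have hv : 2 * x.1 < q := by omega
    have hv' : 2 * x'.1 < q := by omega
    obtain ⟨h1, h2⟩ := enc_inj p q hc hp _ _ _ _ hv hv' (pt0_mem p q x.1 x.2 hpo hj hl).1
      (pt0_mem p q x'.1 x'.2 hpo hj' hl').1 he
    have h3 : x.1 = x'.1 := by omega
    rw [h3] at h1
    unfold pt0U at h1
    have h4 : x.2 = x'.2 := by omega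
    exact Prod.ext h3 h4

/-- The odd points of a block: the parametrisation. -/
def pt1U (p j l : ℕ) : ℤ := 2 * ((10 * (p : ℤ) - 20 * (l : ℤ) - 6 * (j : ℤ) - 14) / 20) + 1

/-- The lower limit of the parameter `j` of the odd points. -/
def aOdd (p l : ℕ) : ℕ := (7 * p + 10000 * l + 8250) / 3500 + 1

lemma pt1_mem (p q j l : ℕ) (hp : p % 2 = 1) (hgood : 10000000 * ((q : ℤ) - p) ≤ p)
    (hl : l < 3 * p / 20) (hj : j < (p - 1) / 2) (hj' : aOdd p l ≤ j) :
    InT (p : ℤ) (q : ℤ) (pt1U p j l) ((2 * j + 1 : ℕ) : ℤ) := by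
  unfold pt1U
  unfold aOdd at hj'
  refine ⟨?_, Or.inr ?_⟩
  · unfold InChart
    push_cast
    omega
  · unfold InOdd
    push_cast
    refine ⟨by omega, by omega, by omega, by omega, hgood⟩

/-- The number of odd points. -/
lemma card_odd_ge (p q : ℕ) (hc : p.Coprime q) (hp : 0 < p) (hpo : p % 2 = 1) (hpq : p ≤ q)
    (hgood : 10000000 * ((q : ℤ) - p) ≤ p) :
    ∑ l ∈ range (3 * p / 20), ((p - 1) / 2 - aOdd p l) ≤
      ((range (p * q)).filter (fun r => InB p q r ∧ (r % q) % 2 = 1)).card := by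
  have hq : 0 < q := by omega
  have key := card_le_card_of_injOn
    (s := (range (3 * p / 20)).sigma (fun l => Ico (aOdd p l) ((p - 1) / 2)))
    (t := (range (p * q)).filter (fun r => InB p q r ∧ (r % q) % 2 = 1))
    (fun x => enc p q hc (pt1U p x.2 x.1) (2 * x.2 + 1)) ?_ ?_
  · rw [card_sigma] at key
    simpa only [Nat.card_Ico] using key
  · intro x hx
    simp only [coe_sigma, coe_range, Set.mem_sigma_iff, Set.mem_Iio, coe_Ico, Set.mem_Ico] at hx
    obtain ⟨hl, hj', hj⟩ := hx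
    have hv : 2 * x.2 + 1 < q := by omega
    obtain ⟨h1, h2⟩ := enc_mem p q hc hp hq (pt1U p x.2 x.1) (2 * x.2 + 1) hv
      (pt1_mem p q x.2 x.1 hpo hgood hl hj hj')
    rw [mem_filter] at h1
    simp only [coe_filter, Set.mem_setOf_eq, mem_range]
    rw [mem_range] at h1
    refine ⟨h1.1, h1.2, ?_⟩
    rw [h2]
    omega
  · intro x hx x' hx' he
    simp only [coe_sigma, coe_range, Set.mem_sigma_iff, Set.mem_Iio, coe_Ico, Set.mem_Ico] at hx hx'
    obtain ⟨hl, hj', hj⟩ := hx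
    obtain ⟨hl2, hj'2, hj2⟩ := hx'
    have hv : 2 * x.2 + 1 < q := by omega
    have hv' : 2 * x'.2 + 1 < q := by omega
    obtain ⟨h1, h2⟩ := enc_inj p q hc hp _ _ _ _ hv hv'
      (pt1_mem p q x.2 x.1 hpo hgood hl hj hj').1
      (pt1_mem p q x'.2 x'.1 hpo hgood hl2 hj2 hj'2).1 he
    have h3 : x.2 = x'.2 := by omega
    rw [h3] at h1
    unfold pt1U at h1
    have h4 : x.1 = x'.1 := by omega
    exact Sigma.ext h4 (heq_of_eq h3)

/-- A closed form for the sum of the numbers of odd points per row. -/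
lemma sum_odd_ge (p M : ℕ) :
    (M : ℤ) * (3500 * (((p - 1) / 2 : ℕ) : ℤ) - 7 * p - 11750) - 5000 * M * (M - 1) ≤
      3500 * ((∑ l ∈ range M, ((p - 1) / 2 - aOdd p l) : ℕ) : ℤ) := by
  induction M with
  | zero => simp
  | succ M ih =>
    rw [sum_range_succ]
    push_cast
    have h1 : (((p - 1) / 2 : ℕ) : ℤ) - (aOdd p M : ℤ) ≤ (((p - 1) / 2 - aOdd p M : ℕ) : ℤ) := by
      omega
    have h2 : 3500 * (aOdd p M : ℤ) ≤ 7 * p + 10000 * M + 8250 + 3500 := by
      unfold aOdd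
      push_cast
      omega
    push_cast at ih h1
    nlinarith

/-- The size of the digit set of a block, in general. -/
lemma card_block_ge (p q : ℕ) (hc : p.Coprime q) (hp : 0 < p) (hpo : p % 2 = 1) (hpq : p ≤ q) :
    p * p ≤ 4 * ((range (p * q)).filter (InB p q)).card + 1 := by
  have h1 := card_even_ge p q hc hp hpo hpq
  have h2 : (range (p * q)).filter (fun r => InB p q r ∧ (r % q) % 2 = 0) ⊆
      (range (p * q)).filter (InB p q) := by
    intro r hr
    rw [mem_filter] at hr ⊢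
    exact ⟨hr.1, hr.2.1⟩
  have h3 := card_le_card h2
  obtain ⟨a, rfl⟩ : ∃ a, p = 2 * a + 1 := ⟨p / 2, by omega⟩
  have e1 : (2 * a + 1 + 1) / 2 = a + 1 := by omega
  have e2 : (2 * a + 1 - 1) / 2 = a := by omega
  rw [e1, e2] at h1
  nlinarith

/-- The size of the digit set of a block, for close `p` and `q`. -/
lemma card_block_good (p q : ℕ) (hc : p.Coprime q) (hp6 : 1000000 ≤ p) (hpo : p % 2 = 1)
    (hpq : p ≤ q) (hgood : 10000000 * ((q : ℤ) - p) ≤ p) :
    2925 * (p * q) ≤ 10000 * ((range (p * q)).filter (InB p q)).card := by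
  have hp : 0 < p := by omega
  have h1 := card_even_ge p q hc hp hpo hpq
  have h2 := card_odd_ge p q hc hp hpo hpq hgood
  have h3 := sum_odd_ge p (3 * p / 20)
  have hdisj : Disjoint ((range (p * q)).filter (fun r => InB p q r ∧ (r % q) % 2 = 0))
      ((range (p * q)).filter (fun r => InB p q r ∧ (r % q) % 2 = 1)) := by
    rw [disjoint_left]
    intro r hr hr'
    rw [mem_filter] at hr hr'
    omega
  have hsub : (range (p * q)).filter (fun r => InB p q r ∧ (r % q) % 2 = 0) ∪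
      (range (p * q)).filter (fun r => InB p q r ∧ (r % q) % 2 = 1) ⊆
        (range (p * q)).filter (InB p q) := by
    intro r hr
    rw [mem_union, mem_filter, mem_filter] at hr
    rw [mem_filter]
    rcases hr with hr | hr
    · exact ⟨hr.1, hr.2.1⟩
    · exact ⟨hr.1, hr.2.1⟩
  have h4 := card_le_card hsub
  rw [card_union_of_disjoint hdisj] at h4
  set c := ((range (p * q)).filter (InB p q)).card with hc'
  set c0 := ((range (p * q)).filter (fun r => InB p q r ∧ (r % q) % 2 = 0)).card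
  set c1 := ((range (p * q)).filter (fun r => InB p q r ∧ (r % q) % 2 = 1)).card
  set S := ∑ l ∈ range (3 * p / 20), ((p - 1) / 2 - aOdd p l) with hS
  set M := 3 * p / 20 with hM
  have hM1 : 3 * p ≤ 20 * M + 19 := by omega
  have hM2 : 20 * M ≤ 3 * p := by omega
  have e1 : (((p - 1) / 2 : ℕ) : ℤ) * 2 = p - 1 := by omega
  have hcZ : ((p * p : ℕ) : ℤ) ≤ 4 * (c0 : ℤ) + 1 := by
    obtain ⟨a, ha⟩ : ∃ a, p = 2 * a + 1 := ⟨p / 2, by omega⟩
    have e3 : (p + 1) / 2 = a + 1 := by omega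
    have e4 : (p - 1) / 2 = a := by omega
    rw [e3, e4] at h1
    have h5 : p * p ≤ 4 * c0 + 1 := by
      rw [ha]
      nlinarith
    exact_mod_cast h5
  have hS' : (S : ℤ) ≤ c1 := by exact_mod_cast h2
  have hmain : (2925 * ((p : ℤ) * q)) ≤ 10000 * (c : ℤ) := by
    have h5 : (c0 : ℤ) + c1 ≤ c := by exact_mod_cast h4
    have h6 : (M : ℤ) * (3500 * (((p - 1) / 2 : ℕ) : ℤ) - 7 * p - 11750) - 5000 * M * (M - 1) ≤
        3500 * (S : ℤ) := h3
    have h7 : 3500 * (((p - 1) / 2 : ℕ) : ℤ) = 1750 * (p : ℤ) - 1750 := by omega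
    rw [h7] at h6
    have hp6Z : (1000000 : ℤ) ≤ p := by exact_mod_cast hp6
    have hM1Z : 3 * (p : ℤ) ≤ 20 * M + 19 := by exact_mod_cast hM1
    have hM2Z : 20 * (M : ℤ) ≤ 3 * p := by exact_mod_cast hM2
    have hM0 : (0 : ℤ) ≤ M := Int.natCast_nonneg M
    -- the lower bound for the odd points
    have h8 : (3 * (p : ℤ) - 19) * (993 * (p : ℤ) - 8500) ≤ 70000 * (S : ℤ) := by
      have h9 : (3 * (p : ℤ) - 19) * (993 * (p : ℤ) - 8500) ≤
          (20 * (M : ℤ)) * (993 * (p : ℤ) - 8500) :=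
        mul_le_mul_of_nonneg_right (by linarith) (by linarith)
      have h10 : (20 * (M : ℤ)) * (993 * (p : ℤ) - 8500) ≤
          (20 * (M : ℤ)) * (1743 * (p : ℤ) - 8500 - 5000 * M) :=
        mul_le_mul_of_nonneg_left (by linarith) (by linarith)
      nlinarith
    have h11 : (q : ℤ) * 10000000 ≤ p * 10000001 := by linarith
    have h12 : 2925 * ((p : ℤ) * q) * 10000000 ≤ 2925 * ((p : ℤ) * (p * 10000001)) := by
      have : (p : ℤ) * ((q : ℤ) * 10000000) ≤ p * (p * 10000001) :=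
        mul_le_mul_of_nonneg_left h11 (by linarith)
      linarith
    push_cast at hcZ
    have h13 : 1000000 * (p : ℤ) ≤ p * p := mul_le_mul_of_nonneg_right hp6Z (by linarith)
    nlinarith
  exact_mod_cast hmain

end Vale.Agent.P057
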