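import Mathlib
import Vale.Agent.P057.ThreeCount

open Finset Real

namespace Vale.Agent.P057

/-- The counting bound for a family of blocks. -/
theorem count_bound3 {n : ℕ} (P Q : Fin n → ℕ) (x : ℕ) (hx : 1000000 ≤ x)
    (hPpr : ∀ i, (P i).Prime) (hQpr : ∀ i, (Q i).Prime) (hPQ : ∀ i, P i < Q i)
    (hxP : ∀ i, x ≤ P i) (hQ3 : ∀ i, Q i ≤ 3 * x)
    (hcop : Pairwise (Function.onFun Nat.Coprime (fun i => P i * Q i)))
    (hsum : ∑ i, (Q i - P i) ≤ 2 * x) :
    ∃ A : Finset ℕ, A ⊆ range (∏ i, (P i * Q i)) ∧ NoAP 3 A ∧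
      (117 / 400 : ℝ) ^ n * (1 / 4 : ℝ) ^ 20000000 * ((∏ i, (P i * Q i) : ℕ) : ℝ) ≤
        (((∑ i, 4000001 * (P i) ^ 2) + 1 : ℕ) : ℝ) * (A.card : ℝ) := by
  classical
  have hPodd : ∀ i, P i % 2 = 1 := by
    intro i
    rcases (hPpr i).eq_two_or_odd with h | h
    · have := hxP i
      omega
    · exact h
  have hQodd : ∀ i, Q i % 2 = 1 := by
    intro i
    rcases (hQpr i).eq_two_or_odd with h | h
    · have := hxP i
      have := hPQ i
      omega
    · exact h
  have hPQc : ∀ i, (P i).Coprime (Q i) := fun i =>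
    (Nat.coprime_primes (hPpr i) (hQpr i)).2 (hPQ i).ne
  have hPpos : ∀ i, 0 < P i := fun i => (hPpr i).pos
  have hQpos : ∀ i, 0 < Q i := fun i => (hQpr i).pos
  obtain ⟨A, hA, hNo, hle⟩ := exists_large3 (fun i => P i * Q i)
    (fun i => Nat.mul_pos (hPpos i) (hQpos i)) hcop (fun i => InB (P i) (Q i))
    (fun i => phiB (P i) (Q i)) (fun i => 4000001 * (P i) ^ 2)
    (fun i r hr => phiB_le (P i) (Q i) r hr)
    (fun i y0 y1 y2 h h0 h1 h2 => block3 (P i) (Q i) (hPpos i) (hPodd i) (hQodd i) (hPQ i).le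
      (hPQc i) y0 y1 y2 h h0 h1 h2)
  refine ⟨A, hA, hNo, ?_⟩
  have hle' : ((∏ i, ((range (P i * Q i)).filter (InB (P i) (Q i))).card : ℕ) : ℝ) ≤
      (((∑ i, 4000001 * (P i) ^ 2) + 1 : ℕ) : ℝ) * (A.card : ℝ) := by
    exact_mod_cast hle
  refine le_trans ?_ hle'
  -- the bad blocks
  set good : Fin n → Prop := fun i => 10000000 * ((Q i : ℤ) - P i) ≤ P i with hgood
  set f : Fin n → ℝ := fun i => if good i then 1 else 1 / 4 with hf
  have each : ∀ i, (117 / 400 : ℝ) * f i * ((P i * Q i : ℕ) : ℝ) ≤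
      (((range (P i * Q i)).filter (InB (P i) (Q i))).card : ℝ) := by
    intro i
    by_cases hg : good i
    · have h1 := card_block_good (P i) (Q i) (hPQc i) (hx.trans (hxP i)) (hPodd i) (hPQ i).le hg
      have h2 : ((2925 * (P i * Q i) : ℕ) : ℝ) ≤
          ((10000 * ((range (P i * Q i)).filter (InB (P i) (Q i))).card : ℕ) : ℝ) := by
        exact_mod_cast h1
      push_cast at h2 ⊢
      simp only [hf, if_pos hg]
      linarith
    · have h1 := card_block_ge (P i) (Q i) (hPQc i) (hPpos i) (hPodd i) (hPQ i).le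
      have h2 : ((P i * P i : ℕ) : ℝ) ≤
          ((4 * ((range (P i * Q i)).filter (InB (P i) (Q i))).card + 1 : ℕ) : ℝ) := by
        exact_mod_cast h1
      have h3 : Q i ≤ 3 * P i := (hQ3 i).trans (Nat.mul_le_mul_left _ (hxP i))
      have h4 : P i * Q i ≤ 3 * (P i * P i) := by
        calc P i * Q i ≤ P i * (3 * P i) := Nat.mul_le_mul_left _ h3
          _ = 3 * (P i * P i) := by ring
      have h5 : ((P i * Q i : ℕ) : ℝ) ≤ ((3 * (P i * P i) : ℕ) : ℝ) := by exact_mod_cast h4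
      have h6 : 1000000 ≤ P i := hx.trans (hxP i)
      have h7 : 1000000 * 1000000 ≤ P i * P i := Nat.mul_le_mul h6 h6
      have h8 : ((1000000 * 1000000 : ℕ) : ℝ) ≤ ((P i * P i : ℕ) : ℝ) := by exact_mod_cast h7
      simp only [hf, if_neg hg]
      push_cast at h2 h5 h8 ⊢
      nlinarith
  -- the number of bad blocks
  set bad := (univ : Finset (Fin n)).filter (fun i => ¬ good i) with hbad
  have hbadcard : bad.card ≤ 20000000 := by
    have h1 : ∀ i ∈ bad, x ≤ 10000000 * (Q i - P i) := by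
      intro i hi
      rw [hbad, mem_filter] at hi
      have h2 := hi.2
      simp only [hgood, not_le] at h2
      have h3 := hxP i
      have h4 := hPQ i
      omega
    have h2 : bad.card * x ≤ ∑ i ∈ bad, 10000000 * (Q i - P i) := by
      rw [← smul_eq_mul]
      exact card_nsmul_le_sum _ _ _ h1
    have h3 : ∑ i ∈ bad, 10000000 * (Q i - P i) ≤ ∑ i, 10000000 * (Q i - P i) :=
      sum_le_sum_of_subset (subset_univ _)
    have h3' : ∑ i, 10000000 * (Q i - P i) = 10000000 * ∑ i, (Q i - P i) := by rw [mul_sum]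
    have h4 : bad.card * x ≤ 20000000 * x := by omega
    exact Nat.le_of_mul_le_mul_right h4 (by omega)
  have hfprod : (1 / 4 : ℝ) ^ 20000000 ≤ ∏ i, f i := by
    have h1 : ∏ i, f i = (1 / 4 : ℝ) ^ bad.card := by
      simp only [hf]
      rw [prod_ite]
      simp only [prod_const_one, one_mul, prod_const]
      rfl
    rw [h1]
    exact pow_le_pow_of_le_one (by norm_num) (by norm_num) hbadcard
  have hDnn : (0 : ℝ) ≤ ((∏ i, (P i * Q i) : ℕ) : ℝ) := Nat.cast_nonneg _
  have hprod : ∏ i, ((117 / 400 : ℝ) * f i * ((P i * Q i : ℕ) : ℝ)) ≤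
      ∏ i, (((range (P i * Q i)).filter (InB (P i) (Q i))).card : ℝ) := by
    refine prod_le_prod (fun i _ => ?_) (fun i _ => each i)
    have : 0 ≤ f i := by
      simp only [hf]
      split_ifs <;> norm_num
    positivity
  have hE : ∏ i, ((117 / 400 : ℝ) * f i * ((P i * Q i : ℕ) : ℝ)) =
      (117 / 400 : ℝ) ^ n * (∏ i, f i) * ((∏ i, (P i * Q i) : ℕ) : ℝ) := by
    rw [prod_mul_distrib, prod_mul_distrib, prod_const, card_univ, Fintype.card_fin, Nat.cast_prod]
  rw [hE, ← Nat.cast_prod] at hprod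
  refine le_trans ?_ hprod
  rw [mul_assoc, mul_assoc]
  apply mul_le_mul_of_nonneg_left _ (by positivity)
  exact mul_le_mul_of_nonneg_right hfprod hDnn

/-- The sum of the gaps inside blocks of consecutive primes telescopes. -/
lemma gaps_le (w n : ℕ) :
    ∑ i ∈ range n, (qp (w + 2 * i + 1) - qp (w + 2 * i)) + qp w ≤ qp (w + 2 * n) := by
  induction n with
  | zero => simp
  | succ n ih =>
    rw [sum_range_succ]
    have h1 : qp (w + 2 * n) ≤ qp (w + 2 * n + 1) := qp_strictMono.monotone (by omega)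
    have h2 : qp (w + 2 * n + 1) ≤ qp (w + 2 * (n + 1)) := qp_strictMono.monotone (by omega)
    omega

lemma prod_pairs (g : ℕ → ℕ) (n : ℕ) :
    ∏ i ∈ range n, (g (2 * i) * g (2 * i + 1)) = ∏ j ∈ range (2 * n), g j := by
  induction n with
  | zero => simp
  | succ n ih =>
    rw [prod_range_succ, ih, show 2 * (n + 1) = 2 * n + 1 + 1 by ring, prod_range_succ,
      prod_range_succ, mul_assoc]

lemma seed_numeric3 (k : ℕ) (hk : 1000000 ≤ k) : 6 * (18 * (k : ℝ)) ^ 4 ≤ exp (5 * k) := by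
  have hk' : (1000000 : ℝ) ≤ k := by exact_mod_cast hk
  have h1 : (k : ℝ) ≤ exp k := by
    have := Real.add_one_le_exp (k : ℝ)
    linarith
  have h2 : (k : ℝ) ^ 5 ≤ exp k ^ 5 := pow_le_pow_left₀ (by positivity) h1 5
  have h3 : exp (k : ℝ) ^ 5 = exp (5 * k) := by
    rw [← Real.exp_nat_mul]
    norm_num
  rw [← h3]
  refine le_trans ?_ h2
  have h4 : (0 : ℝ) ≤ (k : ℝ) ^ 4 := by positivity
  have h5 : 6 * (18 * (k : ℝ)) ^ 4 = 629856 * (k : ℝ) ^ 4 := by ring
  have h6 : (k : ℝ) ^ 5 = (k : ℝ) * (k : ℝ) ^ 4 := by ring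
  rw [h5, h6]
  apply mul_le_mul_of_nonneg_right _ h4
  linarith

lemma base_le_exp3 : (400 / 117 : ℝ) ^ 9 ≤ exp (675 / 61) := by
  have h1 : (400 / 117 : ℝ) ^ 61 ≤ exp 75 := by
    have h2 : exp 75 = exp 1 ^ 75 := by
      rw [← Real.exp_nat_mul]
      norm_num
    rw [h2]
    have h3 : (2.7182 : ℝ) ≤ exp 1 := by
      have := Real.exp_one_gt_d9
      linarith
    have h4 : (2.7182 : ℝ) ^ 75 ≤ exp 1 ^ 75 := pow_le_pow_left₀ (by norm_num) h3 75
    refine le_trans ?_ h4
    norm_num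
  have h5 : ((400 / 117 : ℝ) ^ 61) ^ 9 ≤ exp 75 ^ 9 := pow_le_pow_left₀ (by positivity) h1 9
  have h6 : exp 75 ^ 9 = exp (675 / 61) ^ 61 := by
    rw [← Real.exp_nat_mul, ← Real.exp_nat_mul]
    norm_num
  have h7 : ((400 / 117 : ℝ) ^ 61) ^ 9 = ((400 / 117 : ℝ) ^ 9) ^ 61 := by
    rw [← pow_mul, ← pow_mul]
  rw [h6, h7] at h5
  exact (pow_le_pow_iff_left₀ (by positivity) (Real.exp_pos _).le (by norm_num)).1 h5

/-- All the constants together are small against the exponential of a small multiple of `k`. -/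
lemma small_le_exp3 (k : ℕ) (hk : 100000000000 ≤ k) :
    (3 : ℝ) * 4 ^ 20000000 * (400000000 * (k : ℝ)) * exp 23 ≤ exp ((k : ℝ) / 310) := by
  have hk' : (100000000000 : ℝ) ≤ k := by exact_mod_cast hk
  have h4 : (4 : ℝ) ≤ exp (14 / 10) := by
    have h5 : exp (14 / 10 : ℝ) ^ 5 = exp 7 := by
      rw [← Real.exp_nat_mul]
      norm_num
    have h6 : exp (7 : ℝ) = exp 1 ^ 7 := by
      rw [← Real.exp_nat_mul]
      norm_num
    have h7 : (2.7182 : ℝ) ≤ exp 1 := by
      have := Real.exp_one_gt_d9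
      linarith
    have h8 : (2.7182 : ℝ) ^ 7 ≤ exp 1 ^ 7 := pow_le_pow_left₀ (by norm_num) h7 7
    have h9 : (4 : ℝ) ^ 5 ≤ exp (14 / 10 : ℝ) ^ 5 := by
      rw [h5, h6]
      refine le_trans ?_ h8
      norm_num
    exact (pow_le_pow_iff_left₀ (by norm_num) (Real.exp_pos _).le (by norm_num)).1 h9
  have h10 : (4 : ℝ) ^ 20000000 ≤ exp 28000000 := by
    have h11 := pow_le_pow_left₀ (by norm_num) h4 20000000
    rw [← Real.exp_nat_mul] at h11
    norm_num at h11
    exact h11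
  have h12 : (1200000000 : ℝ) ≤ exp 21 := by
    have h6 : exp (21 : ℝ) = exp 1 ^ 21 := by
      rw [← Real.exp_nat_mul]
      norm_num
    have h7 : (2.7182 : ℝ) ≤ exp 1 := by
      have := Real.exp_one_gt_d9
      linarith
    have h8 : (2.7182 : ℝ) ^ 21 ≤ exp 1 ^ 21 := pow_le_pow_left₀ (by norm_num) h7 21
    rw [h6]
    refine le_trans ?_ h8
    norm_num
  have h13 : (k : ℝ) ≤ exp ((k : ℝ) / 620 + 7) := by
    have h14 : ((k : ℝ) / 620 + 7) + 1 ≤ exp ((k : ℝ) / 620 + 7) := Real.add_one_le_exp _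
    have h15 : (k : ℝ) / 620 * 620 ≤ exp ((k : ℝ) / 620) * 620 := by
      have := Real.add_one_le_exp ((k : ℝ) / 620)
      nlinarith
    have h16 : exp ((k : ℝ) / 620 + 7) = exp ((k : ℝ) / 620) * exp 7 := Real.exp_add _ _
    have h17 : (620 : ℝ) ≤ exp 7 := by
      have h6 : exp (7 : ℝ) = exp 1 ^ 7 := by
        rw [← Real.exp_nat_mul]
        norm_num
      have h7 : (2.7182 : ℝ) ≤ exp 1 := by
        have := Real.exp_one_gt_d9
        linarith
      have h8 : (2.7182 : ℝ) ^ 7 ≤ exp 1 ^ 7 := pow_le_pow_left₀ (by norm_num) h7 7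
      rw [h6]
      refine le_trans ?_ h8
      norm_num
    rw [h16]
    have h18 : 0 < exp ((k : ℝ) / 620) := Real.exp_pos _
    nlinarith
  calc (3 : ℝ) * 4 ^ 20000000 * (400000000 * (k : ℝ)) * exp 23
      = (1200000000 : ℝ) * 4 ^ 20000000 * (k : ℝ) * exp 23 := by ring
    _ ≤ exp 21 * exp 28000000 * exp ((k : ℝ) / 620 + 7) * exp 23 := by
        gcongr
    _ = exp (21 + 28000000 + ((k : ℝ) / 620 + 7) + 23) := by
        simp only [Real.exp_add]
    _ ≤ exp ((k : ℝ) / 310) := by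
        apply Real.exp_le_exp.2
        linarith

/-- The final numerical comparison. -/
lemma final_ineq3 (k : ℕ) (hk : 100000000000 ≤ k) (Nr Pp Rp Ac X2 : ℝ) (hNlt : Nr ≤ 3 * Pp)
    (hcount : (117 / 400 : ℝ) ^ (9 * k) * (1 / 4 : ℝ) ^ 20000000 * Pp ≤ Rp * Ac)
    (hRp : Rp ≤ 400000000 * k * X2) (hX2 : X2 ≤ exp ((100 / 9) * (k : ℝ) + 23))
    (hAc : 0 ≤ Ac) : Nr * exp (-(2218 / 100) * (k : ℝ)) ≤ Ac := by
  have hknn : (0 : ℝ) ≤ k := Nat.cast_nonneg k
  set G : ℝ := (400 / 117 : ℝ) ^ (9 * k) with hG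
  set H : ℝ := (4 : ℝ) ^ 20000000 with hH
  have hGpos : 0 < G := by positivity
  have hHpos : 0 < H := by positivity
  have h1 : Pp ≤ G * H * (Rp * Ac) := by
    have h2 : (117 / 400 : ℝ) ^ (9 * k) * (1 / 4 : ℝ) ^ 20000000 * Pp = Pp / (G * H) := by
      have h3 : (117 / 400 : ℝ) = (400 / 117 : ℝ)⁻¹ := by norm_num
      have h4 : (1 / 4 : ℝ) = (4 : ℝ)⁻¹ := by norm_num
      rw [h3, h4, inv_pow, inv_pow, ← hG, ← hH]
      field_simp
    rw [h2, div_le_iff₀ (by positivity)] at hcount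
    linarith
  have h5 : Rp * Ac ≤ (400000000 * k * exp ((100 / 9) * (k : ℝ) + 23)) * Ac := by
    apply mul_le_mul_of_nonneg_right _ hAc
    exact hRp.trans (mul_le_mul_of_nonneg_left hX2 (by positivity))
  have hbase : G ≤ exp ((675 / 61) * (k : ℝ)) := by
    have h6 := pow_le_pow_left₀ (by positivity) base_le_exp3 k
    rw [← pow_mul, ← Real.exp_nat_mul] at h6
    have h7 : (k : ℝ) * (675 / 61) = (675 / 61) * (k : ℝ) := by ring
    rwa [h7] at h6
  have hsmall := small_le_exp3 k hk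
  have hmain : Nr ≤ exp ((2218 / 100) * (k : ℝ)) * Ac := by
    have h9 : exp ((100 / 9) * (k : ℝ) + 23) = exp ((100 / 9) * (k : ℝ)) * exp 23 :=
      Real.exp_add _ _
    have h10 : exp ((675 / 61) * (k : ℝ)) * exp ((100 / 9) * (k : ℝ)) * exp ((k : ℝ) / 310) ≤
        exp ((2218 / 100) * (k : ℝ)) := by
      rw [← Real.exp_add, ← Real.exp_add]
      apply Real.exp_le_exp.2
      nlinarith
    have h12 : Nr ≤ ((3 : ℝ) * H * (400000000 * (k : ℝ)) * exp 23) *
        (G * exp ((100 / 9) * (k : ℝ))) * Ac := by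
      have h13 : Nr ≤ 3 * (G * H * (Rp * Ac)) := hNlt.trans (by linarith)
      have h14 : 3 * (G * H * (Rp * Ac)) ≤
          3 * (G * H * ((400000000 * k * exp ((100 / 9) * (k : ℝ) + 23)) * Ac)) := by
        gcongr
      refine h13.trans (h14.trans (le_of_eq ?_))
      rw [h9]
      ring
    refine h12.trans ?_
    apply mul_le_mul_of_nonneg_right _ hAc
    calc ((3 : ℝ) * H * (400000000 * (k : ℝ)) * exp 23) * (G * exp ((100 / 9) * (k : ℝ)))
        ≤ exp ((k : ℝ) / 310) * (exp ((675 / 61) * (k : ℝ)) * exp ((100 / 9) * (k : ℝ))) := by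
          apply mul_le_mul hsmall _ (by positivity) (Real.exp_pos _).le
          exact mul_le_mul_of_nonneg_right hbase (Real.exp_pos _).le
      _ = exp ((675 / 61) * (k : ℝ)) * exp ((100 / 9) * (k : ℝ)) * exp ((k : ℝ) / 310) := by ring
      _ ≤ _ := h10
  have h15 : exp (-(2218 / 100) * (k : ℝ)) * exp ((2218 / 100) * (k : ℝ)) = 1 := by
    rw [← Real.exp_add]
    simp
  calc Nr * exp (-(2218 / 100) * (k : ℝ))
      ≤ (exp ((2218 / 100) * (k : ℝ)) * Ac) * exp (-(2218 / 100) * (k : ℝ)) :=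
        mul_le_mul_of_nonneg_right hmain (Real.exp_pos _).le
    _ = Ac * (exp (-(2218 / 100) * (k : ℝ)) * exp ((2218 / 100) * (k : ℝ))) := by ring
    _ = Ac := by rw [h15, mul_one]

/-- The parameter choice. -/
theorem param_step3 (k N : ℕ) (hk : 100000000000 ≤ k) (h1 : 100 * (k : ℝ) ^ 2 ≤ log N)
    (h2 : log N < 100 * ((k : ℝ) + 1) ^ 2) :
    ∃ A : Finset ℕ, A ⊆ range N ∧ NoAP 3 A ∧ (N : ℝ) * exp (-(2218 / 100) * (k : ℝ)) ≤ A.card := by
  have hk' : (100000000000 : ℝ) ≤ k := by exact_mod_cast hk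
  have hkpos : (0 : ℝ) < k := by linarith
  set n := 9 * k with hn
  set m := 18 * k with hm
  have hm2 : m = 2 * n := by omega
  have hmR : (m : ℝ) = 18 * (k : ℝ) := by rw [hm]; push_cast; ring
  have hNpos : (0 : ℝ) < N := by
    by_contra hcon
    have h3 : (N : ℝ) = 0 := le_antisymm (not_lt.1 hcon) (Nat.cast_nonneg N)
    rw [h3, Real.log_zero] at h1
    have h4 : (0 : ℝ) < 100 * (k : ℝ) ^ 2 := by positivity
    linarith
  -- the starting prime
  obtain ⟨p₀, hp₀, hp₁, hp₂⟩ := Nat.exists_prime_lt_and_le_two_mul (m ^ 4) (by positivity)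
  have hm4big : 1000000 ≤ m ^ 4 := by
    calc 1000000 ≤ m := by omega
      _ ≤ m ^ 4 := Nat.le_self_pow (by norm_num) m
  set w₀ := Nat.count Nat.Prime p₀ with hw₀
  have hqw₀ : qp w₀ = p₀ := Nat.nth_count hp₀
  have hseed : fq m w₀ ≤ N := by
    have h3 : qp (w₀ + m) ≤ 3 * qp w₀ :=
      qp_add_le w₀ m (by omega) (by omega)
    have h4 : fq m w₀ ≤ (6 * m ^ 4) ^ m := by
      unfold fq
      calc ∏ i ∈ range m, qp (w₀ + i) ≤ ∏ _i ∈ range m, 6 * m ^ 4 := by
            refine prod_le_prod' fun i hi => ?_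
            rw [mem_range] at hi
            have h5 : qp (w₀ + i) ≤ qp (w₀ + m) := qp_strictMono.monotone (by omega)
            omega
        _ = (6 * m ^ 4) ^ m := by rw [prod_const, card_range]
    have h5 : ((fq m w₀ : ℕ) : ℝ) ≤ (6 * (m : ℝ) ^ 4) ^ m := by exact_mod_cast h4
    have h6 : 6 * (m : ℝ) ^ 4 ≤ exp (5 * k) := by
      rw [hmR]
      exact seed_numeric3 k (by omega)
    have h7 : (6 * (m : ℝ) ^ 4) ^ m ≤ exp (5 * k) ^ m := pow_le_pow_left₀ (by positivity) h6 m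
    have h8 : exp (5 * (k : ℝ)) ^ m = exp (90 * (k : ℝ) ^ 2) := by
      rw [← Real.exp_nat_mul, hmR]
      congr 1
      ring
    have h9 : exp (90 * (k : ℝ) ^ 2) ≤ exp (log N) := by
      apply Real.exp_le_exp.2
      nlinarith
    rw [Real.exp_log hNpos] at h9
    have h10 : ((fq m w₀ : ℕ) : ℝ) ≤ N := by
      calc ((fq m w₀ : ℕ) : ℝ) ≤ _ := h5
        _ ≤ _ := h7
        _ = _ := h8
        _ ≤ _ := h9
    exact_mod_cast h10
  obtain ⟨w, hww, hw1, hw2⟩ := exists_step (fq m) (fq_mono m) w₀ N hseed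
    ⟨N, fq_gt m N (by omega)⟩
  set x := qp w with hx
  have hxp : p₀ ≤ x := by
    rw [← hqw₀]
    exact qp_strictMono.monotone hww
  have hx6 : 1000000 ≤ x := by omega
  have hxm : m ^ 4 ≤ x := by omega
  have hnext : qp (w + m) ≤ 3 * x := qp_add_le w m hx6 hxm
  -- the blocks
  set P : Fin n → ℕ := fun i => qp (w + 2 * (i : ℕ)) with hP
  set Q : Fin n → ℕ := fun i => qp (w + (2 * (i : ℕ) + 1)) with hQ
  have hprodD : ∏ i, (P i * Q i) = fq m w := by
    have h3 : ∏ i, (P i * Q i) = ∏ i ∈ range n, (qp (w + 2 * i) * qp (w + (2 * i + 1))) :=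
      Fin.prod_univ_eq_prod_range (fun i => qp (w + 2 * i) * qp (w + (2 * i + 1))) n
    rw [h3, prod_pairs (fun j => qp (w + j)) n, ← hm2]
    rfl
  have hPge : ∀ i, x ≤ P i := fun i => qp_strictMono.monotone (by omega)
  have hPQ : ∀ i, P i < Q i := fun i => qp_strictMono (by omega)
  have hQle : ∀ i, Q i ≤ 3 * x := fun i => by
    have h3 : Q i ≤ qp (w + m) := qp_strictMono.monotone (by have := i.2; omega)
    omega
  have hPle : ∀ i, P i ≤ 3 * x := fun i => (hPQ i).le.trans (hQle i)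
  have hcop : Pairwise (Function.onFun Nat.Coprime (fun i => P i * Q i)) := by
    intro i j hij
    have hne : (i : ℕ) ≠ (j : ℕ) := fun h => hij (Fin.ext h)
    have key : ∀ a b : ℕ, a ≠ b → Nat.Coprime (qp a) (qp b) := fun a b hab =>
      (Nat.coprime_primes (qp_prime _) (qp_prime _)).2 (fun h => hab (qp_strictMono.injective h))
    simp only [Function.onFun]
    apply Nat.Coprime.mul_left
    · apply Nat.Coprime.mul_right
      · exact key _ _ (by omega)
      · exact key _ _ (by omega)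
    · apply Nat.Coprime.mul_right
      · exact key _ _ (by omega)
      · exact key _ _ (by omega)
  have hsum : ∑ i, (Q i - P i) ≤ 2 * x := by
    have h3 : ∑ i, (Q i - P i) = ∑ i ∈ range n, (qp (w + (2 * i + 1)) - qp (w + 2 * i)) :=
      Fin.sum_univ_eq_sum_range (fun i => qp (w + (2 * i + 1)) - qp (w + 2 * i)) n
    have h4 := gaps_le w n
    have h5 : ∑ i ∈ range n, (qp (w + 2 * i + 1) - qp (w + 2 * i)) =
        ∑ i ∈ range n, (qp (w + (2 * i + 1)) - qp (w + 2 * i)) := rfl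
    rw [h3, ← h5]
    rw [← hm2] at h4
    omega
  obtain ⟨A, hA, hNo, hcount⟩ := count_bound3 P Q x hx6 (fun i => qp_prime _) (fun i => qp_prime _)
    hPQ hPge hQle hcop hsum
  have hxpow : ((x : ℝ)) ^ m ≤ N := by
    have h3 : x ^ m ≤ fq m w := by
      unfold fq
      calc x ^ m = ∏ _i ∈ range m, x := by rw [prod_const, card_range]
        _ ≤ _ := prod_le_prod' fun i _ => qp_strictMono.monotone (by omega)
    exact_mod_cast h3.trans hw1
  refine ⟨A, ?_, hNo, ?_⟩
  · intro y hy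
    have h3 := hA hy
    rw [mem_range, hprodD] at h3
    rw [mem_range]
    omega
  -- the final inequality
  have hNlt : N ≤ 3 * fq m w := by
    have h3 := fq_tele m w
    have hpos : 0 < qp w := (qp_prime w).pos
    have h7 : qp w * fq m (w + 1) ≤ qp w * (3 * fq m w) := by
      rw [← h3]
      calc fq m w * qp (w + m) ≤ fq m w * (3 * x) := Nat.mul_le_mul_left _ hnext
        _ = _ := by rw [hx]; ring
    have h8 := Nat.le_of_mul_le_mul_left h7 hpos
    omega
  have hNlt' : (N : ℝ) ≤ 3 * ((∏ i, (P i * Q i) : ℕ) : ℝ) := by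
    rw [hprodD]
    exact_mod_cast hNlt
  have hRp : (((∑ i, 4000001 * (P i) ^ 2) + 1 : ℕ) : ℝ) ≤ 400000000 * (k : ℝ) * (x : ℝ) ^ 2 := by
    have h3 : ∑ i, 4000001 * (P i) ^ 2 ≤ ∑ _i : Fin n, 4000001 * (3 * x) ^ 2 :=
      sum_le_sum fun i _ => Nat.mul_le_mul_left _ (Nat.pow_le_pow_left (hPle i) 2)
    rw [sum_const, card_univ, Fintype.card_fin, smul_eq_mul] at h3
    have h4 : (∑ i, 4000001 * (P i) ^ 2) + 1 ≤ 400000000 * k * x ^ 2 := by
      have h5 : 1 ≤ k * x ^ 2 := Nat.mul_pos (by omega) (pow_pos (by omega) 2)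
      have h6 : n * (4000001 * (3 * x) ^ 2) = 324000081 * (k * x ^ 2) := by
        rw [hn]
        ring
      have h7 : 400000000 * k * x ^ 2 = 400000000 * (k * x ^ 2) := by ring
      omega
    exact_mod_cast h4
  have hX2 : (x : ℝ) ^ 2 ≤ exp ((100 / 9) * (k : ℝ) + 23) := by
    have hxpos : (0 : ℝ) < x := by
      have : 0 < x := by omega
      exact_mod_cast this
    set L := log (x : ℝ) with hL
    have hlogle : (18 * (k : ℝ)) * L ≤ log N := by
      have h3 := Real.log_le_log (by positivity) hxpow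
      rw [Real.log_pow, hmR] at h3
      exact h3
    have hL2 : 2 * L ≤ (100 / 9) * (k : ℝ) + 23 := by
      by_contra hcon
      push Not at hcon
      have h3 : (9 * (k : ℝ)) * ((100 / 9) * (k : ℝ) + 23) ≤ (9 * (k : ℝ)) * (2 * L) :=
        mul_le_mul_of_nonneg_left hcon.le (by positivity)
      nlinarith
    have h4 : (x : ℝ) ^ 2 = exp (2 * L) := by
      rw [hL, two_mul, Real.exp_add, Real.exp_log hxpos]
      ring
    rw [h4]
    exact Real.exp_le_exp.2 hL2
  exact final_ineq3 k hk _ _ _ _ _ hNlt' hcount hRp hX2 (Nat.cast_nonneg _)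

/-- Shifting a progression-free set by one. -/
lemma noAP_shift3 (A : Finset ℕ) (hA : NoAP 3 A) :
    NoAP 3 (A.image (fun y => y + 1)) := by
  intro a d hd hall
  have h0 := hall 0 (by omega)
  rw [mem_image] at h0
  obtain ⟨b, _, hb⟩ := h0
  refine hA b d hd fun j hj => ?_
  have h1 := hall j (by omega)
  rw [mem_image] at h1
  obtain ⟨c, hc, hc'⟩ := h1
  have : c = b + j * d := by
    simp only [zero_mul, add_zero] at hb
    omega
  rw [← this]
  exact hc

/-- The lower bound for `r_3`, with a constant below the value `2.2200…` of the best known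
construction. -/
theorem main_bound3 :
    ∃ N₀ : ℕ, ∀ N : ℕ, N₀ ≤ N →
      (N : ℝ) * exp (-(2218 / 1000) * √(log N)) ≤ r 3 N := by
  set Z : ℝ := exp (100 * (100000000000 : ℝ) ^ 2) with hZ
  refine ⟨⌈Z⌉₊, fun N hN => ?_⟩
  have hZpos : 0 < Z := Real.exp_pos _
  have hNZ : Z ≤ N := (Nat.le_ceil Z).trans (by exact_mod_cast hN)
  have hNpos : (0 : ℝ) < N := lt_of_lt_of_le hZpos hNZ
  have hlog : 100 * (100000000000 : ℝ) ^ 2 ≤ log N := by
    have := Real.log_le_log hZpos hNZ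
    rwa [hZ, Real.log_exp] at this
  have hlogpos : 0 ≤ log (N : ℝ) := le_trans (by positivity) hlog
  set t := √(log (N : ℝ)) with ht
  have ht0 : 0 ≤ t := Real.sqrt_nonneg _
  have ht2 : t ^ 2 = log N := Real.sq_sqrt hlogpos
  have ht_big : 1000000000000 ≤ t := by
    by_contra hcon
    push Not at hcon
    have h3 : t ^ 2 < (1000000000000 : ℝ) ^ 2 := pow_lt_pow_left₀ hcon ht0 (by norm_num)
    rw [ht2] at h3
    norm_num at hlog h3
    linarith
  set k := ⌊t / 10⌋₊ with hk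
  have hk1 : (k : ℝ) ≤ t / 10 := Nat.floor_le (by positivity)
  have hk2 : t / 10 < (k : ℝ) + 1 := Nat.lt_floor_add_one _
  have hk3 : 100000000000 ≤ k := by
    apply Nat.le_floor
    push_cast
    linarith
  have hkn : (0 : ℝ) ≤ k := Nat.cast_nonneg k
  have h1 : 100 * (k : ℝ) ^ 2 ≤ log N := by
    rw [← ht2]
    have h3 : (10 * (k : ℝ)) ^ 2 ≤ t ^ 2 := pow_le_pow_left₀ (by positivity) (by linarith) 2
    nlinarith
  have h2 : log N < 100 * ((k : ℝ) + 1) ^ 2 := by
    rw [← ht2]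
    have h3 : t ^ 2 < (10 * ((k : ℝ) + 1)) ^ 2 := pow_lt_pow_left₀ (by linarith) ht0 (by norm_num)
    nlinarith
  obtain ⟨A, hA, hNo, hcard⟩ := param_step3 k N hk3 h1 h2
  have hsub : A.image (fun y => y + 1) ⊆ Icc 1 N := by
    intro y hy
    rw [mem_image] at hy
    obtain ⟨c, hc, rfl⟩ := hy
    have := hA hc
    rw [mem_range] at this
    rw [mem_Icc]
    omega
  have hcardimg : (A.image (fun y => y + 1)).card = A.card :=
    card_image_of_injective _ (fun a b h => by simpa using h)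
  have hle := le_r 3 N _ hsub (noAP_shift3 A hNo)
  rw [hcardimg] at hle
  have hexp : exp (-(2218 / 1000) * t) ≤ exp (-(2218 / 100) * (k : ℝ)) :=
    Real.exp_le_exp.2 (by linarith)
  calc (N : ℝ) * exp (-(2218 / 1000) * t) ≤ (N : ℝ) * exp (-(2218 / 100) * (k : ℝ)) :=
        mul_le_mul_of_nonneg_left hexp hNpos.le
    _ ≤ A.card := hcard
    _ ≤ r 3 N := by exact_mod_cast hle

end Vale.Agent.P057
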